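import Vale.Agent.Lib.P343.Letters

namespace Vale.Agent.Lib.P343

section Encoding

variable {Q : Type}

/-- A list of bounded length as a function on a finite set. -/
def code (k : ℕ) (l : List Q) : Fin k → Option Q := fun i => l[i.val]?

theorem code_inj {k : ℕ} {l₁ l₂ : List Q} (h₁ : l₁.length ≤ k) (h₂ : l₂.length ≤ k)
    (h : code k l₁ = code k l₂) : l₁ = l₂ := by
  apply List.ext_getElem?
  intro i
  by_cases hi : i < k
  · exact congrFun h ⟨i, hi⟩
  · rw [List.getElem?_eq_none (by omega), List.getElem?_eq_none (by omega)]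

/-- A triple of a certificate in a finite type. -/
def enc1 (k : ℕ) (x : Q × List Q × Res Q) : Q × (Fin k → Option Q) × Res Q :=
  (x.1, code k x.2.1, x.2.2)

theorem enc1_inj {k : ℕ} {x y : Q × List Q × Res Q} (h₁ : x.2.1.length ≤ k) (h₂ : y.2.1.length ≤ k)
    (h : enc1 k x = enc1 k y) : x = y := by
  obtain ⟨c, l, r⟩ := x
  obtain ⟨c', l', r'⟩ := y
  simp only [enc1, Prod.mk.injEq] at h
  obtain ⟨rfl, h3, rfl⟩ := h
  have e : l = l' := code_inj h₁ h₂ h3
  rw [e]

/-- Certificates in a finite type. -/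
def enc (k : ℕ) (x : CertData Q) :
    (Q × (Fin k → Option Q) × Res Q) × Option (Q × (Fin k → Option Q) × Res Q) :=
  (enc1 k x.1, x.2.map (enc1 k))

/-- The length conditions on certificates. -/
def CertLen (k : ℕ) (x : CertData Q) : Prop :=
  x.1.2.1.length ≤ k ∧ ∀ y, x.2 = some y → y.2.1.length ≤ k

theorem enc_inj {k : ℕ} {x y : CertData Q} (h₁ : CertLen k x) (h₂ : CertLen k y)
    (h : enc k x = enc k y) : x = y := by
  obtain ⟨x1, x2⟩ := x
  obtain ⟨y1, y2⟩ := y
  simp only [enc, Prod.mk.injEq] at h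
  obtain ⟨h3, h4⟩ := h
  have e1 := enc1_inj h₁.1 h₂.1 h3
  subst e1
  cases x2 with
  | none =>
    cases y2 with
    | none => rfl
    | some y' => simp at h4
  | some x' =>
    cases y2 with
    | none => simp at h4
    | some y' =>
      simp only [Option.map_some, Option.some.injEq] at h4
      have := enc1_inj (h₁.2 x' rfl) (h₂.2 y' rfl) h4
      rw [this]

theorem CertP_len {S : Type} [Fintype Q] {acc : Q → Bool} {δ : Q → S → Option (Q × Move)}
    {E : List S} {α : S} {k : ℕ} {x : CertData Q} (h : CertP acc δ E α k x) : CertLen k x := by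
  obtain ⟨⟨c, l, r⟩, y⟩ := x
  cases y with
  | none =>
    exact ⟨h.2.1, by simp⟩
  | some y =>
    obtain ⟨c₂, l₂, r₂⟩ := y
    obtain ⟨_, _, _, _, h1, h2, _⟩ := h
    refine ⟨h1, ?_⟩
    intro y hy
    simp only [Option.some.injEq] at hy
    rw [← hy]
    exact h2

end Encoding

theorem count_arith (s k : ℕ) :
    2 * ((s * ((s + 1) ^ k * (2 * s + 1))) * ((s * ((s + 1) ^ k * (2 * s + 1))) + 1)) ≤
      16 * (s + 1) ^ (2 * k + 4) := by
  set u := s + 1 with hu
  set v := u ^ (k + 2) with hv
  have hv1 : 1 ≤ v := Nat.one_le_pow _ _ (by omega)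
  have hX : s * (u ^ k * (2 * s + 1)) ≤ 2 * v := by
    have e : v = u ^ k * u * u := by rw [hv]; ring
    have h1 : s ≤ u := by omega
    have h2 : 2 * s + 1 ≤ 2 * u := by omega
    calc s * (u ^ k * (2 * s + 1)) ≤ u * (u ^ k * (2 * u)) := by gcongr
      _ = 2 * v := by rw [e]; ring
  have hpow : u ^ (2 * k + 4) = v * v := by
    rw [hv, ← pow_add]
    congr 1
    ring
  rw [hpow]
  set X := s * (u ^ k * (2 * s + 1)) with hXdef
  nlinarith

section Main

variable {n k : ℕ} {Q : Type} [Fintype Q]

/-- The lower bound: a two-way deterministic automaton for one-way liveness with a bounded number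
of crossings per pass on non-live words needs many states. -/
theorem bound_of_machine (M : TwoDFA Q (Letter n)) (h1 : ∀ w, M.Accepts w ↔ Live w)
    (h2 : ∀ w, ¬ Live w → M.PassCrossingBound w k) :
    2 ^ n ≤ 16 * (Fintype.card Q + 1) ^ (2 * k + 4) := by
  classical
  rcases Nat.eq_zero_or_pos n with rfl | hn
  · have : 1 ≤ (Fintype.card Q + 1) ^ (2 * k + 4) := Nat.one_le_pow _ _ (by omega)
    simp only [pow_zero]
    omega
  set pt : Fin n := ⟨0, hn⟩ with hpt
  set acc := M.acc with hacc
  set δ := M.δ with hδ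
  set Lw : List (Letter n) → List (TapeSym (Letter n)) := fun x => x.map TapeSym.letter with hLw
  set Φ : List (Letter n) → ℕ := fun x =>
    (TR acc δ (Lw x)).card + (TR acc (revδ δ) (Lw x).reverse).card with hΦ
  have hex : ∃ m, ∃ x, Full x ∧ Φ x = m := ⟨_, [oneL], full_one, rfl⟩
  obtain ⟨E, hEF, hEm⟩ := Nat.find_spec hex
  have hmin : ∀ x, Full x → Φ E ≤ Φ x := by
    intro x hx
    rw [hEm]
    exact Nat.find_min' hex ⟨x, hx, rfl⟩
  set E' := Lw E with hE'
  have hE'ne : E' ≠ [] := by
    have := hEF.1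
    simpa [hE', hLw] using this
  have hE'rne : E'.reverse ≠ [] := by simpa using hE'ne
  -- the through properties
  have hthrough : ∀ (Y X : Finset (Fin n)) (y : Fin n), y ∈ Y → y ∈ X →
      ((∀ c ∈ TR acc δ E', ∃ q, wire acc δ E'
          [TapeSym.letter (aL Y), TapeSym.letter (bL X)] c = some (true, q)) ∧
        (∀ c₁ ∈ TR acc δ E', ∀ c₂ ∈ TR acc δ E',
          wire acc δ E' [TapeSym.letter (aL Y), TapeSym.letter (bL X)] c₁ =
            wire acc δ E' [TapeSym.letter (aL Y), TapeSym.letter (bL X)] c₂ → c₁ = c₂)) ∧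
      ((∀ c ∈ TR acc (revδ δ) E'.reverse, ∃ q, wire acc (revδ δ) E'.reverse
          [TapeSym.letter (bL X), TapeSym.letter (aL Y)] c = some (true, q)) ∧
        (∀ c₁ ∈ TR acc (revδ δ) E'.reverse, ∀ c₂ ∈ TR acc (revδ δ) E'.reverse,
          wire acc (revδ δ) E'.reverse [TapeSym.letter (bL X), TapeSym.letter (aL Y)] c₁ =
            wire acc (revδ δ) E'.reverse [TapeSym.letter (bL X), TapeSym.letter (aL Y)] c₂ →
              c₁ = c₂)) := by
    intro Y X y hy hx
    have hZ := full_mid hEF hy hx
    have hle := hmin _ hZ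
    have e1 : Lw (E ++ [aL Y, bL X] ++ E) =
        E' ++ [TapeSym.letter (aL Y), TapeSym.letter (bL X)] ++ E' := by
      simp [hLw, hE']
    have e2 : (Lw (E ++ [aL Y, bL X] ++ E)).reverse =
        E'.reverse ++ [TapeSym.letter (bL X), TapeSym.letter (aL Y)] ++ E'.reverse := by
      rw [e1]
      simp [List.append_assoc]
    have hle' : (TR acc δ E').card + (TR acc (revδ δ) E'.reverse).card ≤
        (TR acc δ (E' ++ [TapeSym.letter (aL Y), TapeSym.letter (bL X)] ++ E')).card +
        (TR acc (revδ δ)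
          (E'.reverse ++ [TapeSym.letter (bL X), TapeSym.letter (aL Y)] ++ E'.reverse)).card := by
      have := hle
      simp only [hΦ] at this
      rw [e2, e1] at this
      exact this
    have hs1 : (TR acc δ (E' ++ [TapeSym.letter (aL Y), TapeSym.letter (bL X)] ++ E')).card ≤
        (TR acc δ E').card := Finset.card_le_card (TR_suffix hE'ne)
    have hs2 : (TR acc (revδ δ)
        (E'.reverse ++ [TapeSym.letter (bL X), TapeSym.letter (aL Y)] ++ E'.reverse)).card ≤
        (TR acc (revδ δ) E'.reverse).card := Finset.card_le_card (TR_suffix hE'rne)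
    exact ⟨through hE'ne (by omega), through hE'rne (by omega)⟩
  -- the witnesses
  set π := (Fintype.card Q).factorial with hπ
  have hπpos : 0 < π := Nat.factorial_pos _
  set α : Finset (Fin n) → TapeSym (Letter n) := fun S => TapeSym.letter (aL S) with hα
  set β : Finset (Fin n) → TapeSym (Letter n) := fun S => TapeSym.letter (bL Sᶜ) with hβ
  have hwit : ∀ S : Finset (Fin n), ∃ (b : Bool) (x : CertData Q),
      (b = true ∧ CertP acc δ E' (α S) k x ∧ CertQ acc δ E' (β S) x) ∨
      (b = false ∧ CertP acc (revδ δ) E'.reverse (β S) k x ∧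
        CertQ acc (revδ δ) E'.reverse (α S) x) := by
    intro S
    have hnl := WW_not_live E S hπpos
    have hCB := CB_of_pass (h2 _ hnl)
    have hrej : ¬ M.Accepts (WW E [aL S, bL Sᶜ] π) := fun h => hnl ((h1 _).mp h)
    have hacE : M.Accepts E := (h1 E).mpr (live_of_full hEF pt)
    have htapeW : tape (WW E [aL S, bL Sᶜ] π) =
        [TapeSym.lend] ++ WW E' [α S, β S] π ++ [TapeSym.rend] := by
      rw [tape_eq, WW_map]
      rfl
    have htapeE : tape E = [TapeSym.lend] ++ E' ++ [TapeSym.rend] := tape_eq E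
    have hrevW : (tape (WW E [aL S, bL Sᶜ] π)).reverse =
        [TapeSym.rend] ++ WW E'.reverse [β S, α S] π ++ [TapeSym.lend] := by
      rw [htapeW]
      have := WW_reverse E' [α S, β S] π
      simp only [List.reverse_cons, List.reverse_nil, List.nil_append, List.singleton_append] at this
      simp [this]
    by_cases hGR : Good acc δ ([TapeSym.lend] ++ WW E' [α S, β S] π ++ [TapeSym.rend]) (M.start, 0)
        E' [α S, β S] ([TapeSym.lend] : List (TapeSym (Letter n))).length π
    · by_cases hGL : Good acc (revδ δ)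
          ([TapeSym.rend] ++ WW E'.reverse [β S, α S] π ++ [TapeSym.lend])
          (mir ([TapeSym.lend] ++ WW E' [α S, β S] π ++ [TapeSym.rend]) (M.start, 0))
          E'.reverse [β S, α S] ([TapeSym.rend] : List (TapeSym (Letter n))).length π
      · exfalso
        apply hrej
        obtain ⟨t0, q0, i0, ht0, hq0⟩ := hacE
        have hacc' : ∃ t e, run acc δ ([TapeSym.lend] ++ E' ++ [TapeSym.rend]) (M.start, 0) t =
            some e ∧ acc e.1 = true := by
          refine ⟨t0, (q0, i0), ?_, hq0⟩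
          rw [← htapeE]
          exact ht0
        obtain ⟨t, e, ht, he⟩ := accepts_transfer hE'ne
          (fun q p m => M.no_left q p m) (fun q p m => M.no_right q p m) hGR hGL hacc'
        refine ⟨t, e.1, e.2, ?_, he⟩
        unfold TwoDFA.trace
        rw [htapeW]
        exact ht
      · have hCB' := CB_rev hCB
        rw [hrevW, htapeW] at hCB'
        obtain ⟨x, hx1, hx2⟩ := cert_of_not_good (Pre := [TapeSym.rend]) (Suf := [TapeSym.lend])
          (by simp) (by simp) hCB' hGL
        exact ⟨false, x, Or.inr ⟨rfl, hx1, hx2⟩⟩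
    · rw [htapeW] at hCB
      obtain ⟨x, hx1, hx2⟩ := cert_of_not_good (Pre := [TapeSym.lend]) (Suf := [TapeSym.rend])
        (by simp) (by simp) hCB hGR
      exact ⟨true, x, Or.inl ⟨rfl, hx1, hx2⟩⟩
  choose b x hbx using hwit
  -- hybrids
  have hhyb : ∀ S S' : Finset (Fin n), ∀ y, y ∈ S → y ∉ S' → b S = b S' → x S = x S' → False := by
    intro S S' y hy hy' hb hx
    have hth := hthrough S S'ᶜ y hy (by simpa using hy')
    rcases hbx S with ⟨hb1, h3, h4⟩ | ⟨hb1, h3, h4⟩
    · rcases hbx S' with ⟨_, h5, h6⟩ | ⟨hb2, _, _⟩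
      · rw [← hx] at h6
        exact cert_contra hth.1 h3 h6
      · rw [hb1, hb2] at hb
        simp at hb
    · rcases hbx S' with ⟨hb2, _, _⟩ | ⟨_, h5, h6⟩
      · rw [hb1, hb2] at hb
        simp at hb
      · rw [← hx] at h5
        exact cert_contra hth.2 h5 h4
  have hlen : ∀ S, CertLen k (x S) := by
    intro S
    rcases hbx S with ⟨_, h3, _⟩ | ⟨_, h3, _⟩
    · exact CertP_len h3
    · exact CertP_len h3
  have hinj : Function.Injective (fun S : Finset (Fin n) => (b S, enc k (x S))) := by
    intro S S' hSS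
    simp only [Prod.mk.injEq] at hSS
    obtain ⟨hb, hx⟩ := hSS
    have hxx := enc_inj (hlen S) (hlen S') hx
    by_contra hne
    by_cases hsub : S ⊆ S'
    · have hnsub : ¬ S' ⊆ S := fun h => hne (Finset.Subset.antisymm hsub h)
      obtain ⟨y, hy, hy'⟩ := Finset.not_subset.mp hnsub
      exact hhyb S' S y hy hy' hb.symm hxx.symm
    · obtain ⟨y, hy, hy'⟩ := Finset.not_subset.mp hsub
      exact hhyb S S' y hy hy' hb hxx
  have hcard := Fintype.card_le_of_injective _ hinj
  simp only [Fintype.card_finset, Fintype.card_fin, Fintype.card_prod, Fintype.card_bool,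
    Fintype.card_option, Fintype.card_fun] at hcard
  have hfin := count_arith (Fintype.card Q) k
  calc 2 ^ n ≤ _ := hcard
    _ ≤ _ := by
      convert hfin using 2

end Main

end Vale.Agent.Lib.P343
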