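import Vale.Agent.Lib.P343.Sim

namespace Vale.Agent.Lib.P343

variable {Q S : Type} {acc : Q → Bool} {δ : Q → S → Option (Q × Move)}

/-- The part of a certificate that depends on the letter `α` on the left of the boundary. -/
def PartP (acc : Q → Bool) (δ : Q → S → Option (Q × Move)) (E : List S) (α : S) (c : Q) (l : List Q)
    (r : Res Q) : Prop :=
  partP (fun d => out acc δ (E ++ [α]) (d, ((E ++ [α]).length : ℤ) - 1))
    (out acc δ (E ++ [α]) (c, (E.length : ℤ))) l r

/-- The part of a certificate that depends on the letter `β` on the right of the boundary. -/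
def PartQ (acc : Q → Bool) (δ : Q → S → Option (Q × Move)) (E : List S) (β : S) (l : List Q)
    (r : Res Q) : Prop :=
  partQ (fun d => out acc δ ([β] ++ E) (d, 0)) l r

theorem list_split (E : List S) (α β : S) : E ++ [α, β] ++ E = (E ++ [α]) ++ ([β] ++ E) := by
  simp [List.append_assoc]

/-- A certificate determines the wire, for any two letters. -/
theorem part_sound {E : List S} {α β : S} {c : Q} {l : List Q} {r : Res Q}
    (hP : PartP acc δ E α c l r) (hQ : PartQ acc δ E β l r) :
    wire acc δ E [α, β] c = r := by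
  unfold wire
  rw [list_split]
  refine zig_sound (P := E ++ [α]) (R := [β] ++ E) (by simp) (by simp) l.length l (le_refl _) c _ r
    (by omega) (by simp) hP hQ

/-- A computation with few crossings has certificates on its visited wires. -/
theorem part_complete {Pre Suf E : List S} {α β : S} {π i k t : ℕ} {s0 : Q × ℤ} {c : Q}
    (hi : i < π) (hPre : 1 ≤ Pre.length) (hSuf : 1 ≤ Suf.length)
    (hCB : CB acc δ (Pre ++ WW E [α, β] π ++ Suf) s0 k)
    (ht : run acc δ (Pre ++ WW E [α, β] π ++ Suf) s0 t =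
      some (c, (Pre.length : ℤ) + (WW E [α, β] i).length)) :
    ∃ (l : List Q) (r : Res Q), l.length ≤ k ∧ PartP acc δ E α c l r ∧ PartQ acc δ E β l r := by
  have hO := chain_occ (Pre := Pre) (Suf := Suf) (E := E) (z := [α, β]) hi
  rw [list_split] at hO
  obtain ⟨A, hA⟩ := WW_suffix E [α, β] i
  have hlenW : (WW E [α, β] i).length = A.length + E.length := by
    rw [hA]; simp
  have hle : (WW E [α, β] (i + 1)).length ≤ (WW E [α, β] π).length := WW_mono _ _ hi
  rw [WW_succ_length] at hle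
  simp only [List.length_cons, List.length_nil] at hle
  obtain ⟨l, r, hl, h1, h2⟩ := zig_complete (acc := acc) (δ := δ) hO
    (P := E ++ [α]) (R := [β] ++ E) (by simp) (by simp)
    (by omega)
    (by
      simp only [List.length_append, List.length_singleton]
      push_cast
      omega)
    hCB k 0 t t ∅ c (E.length : ℤ) (by omega) (by simp) (le_refl _) (by simp)
    (by
      intro τ h3 h4
      have : τ = t := by omega
      subst this
      refine ⟨c, _, ht, ?_, ?_⟩
      · omega
      · simp only [List.length_append, List.length_singleton]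
        push_cast
        omega)
    (by
      rw [ht]
      congr 2
      ring)
    (by omega)
    (by simp)
  exact ⟨l, r, hl, h1, h2⟩

/-- Raw certificates: one or two triples of a state, a crossing sequence and an outcome. -/
abbrev CertData (Q : Type) := (Q × List Q × Res Q) × Option (Q × List Q × Res Q)

/-- The left part of a certificate of failure. -/
def CertP [Fintype Q] (acc : Q → Bool) (δ : Q → S → Option (Q × Move)) (E : List S) (α : S)
    (k : ℕ) : CertData Q → Prop
  | ((c, l, r), none) => c ∈ TR acc δ E ∧ l.length ≤ k ∧ PartP acc δ E α c l r ∧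
      ∀ q, r ≠ some (true, q)
  | ((c₁, l₁, r₁), some (c₂, l₂, r₂)) => c₁ ∈ TR acc δ E ∧ c₂ ∈ TR acc δ E ∧ c₁ ≠ c₂ ∧ r₁ = r₂ ∧
      l₁.length ≤ k ∧ l₂.length ≤ k ∧ PartP acc δ E α c₁ l₁ r₁ ∧ PartP acc δ E α c₂ l₂ r₂

/-- The right part of a certificate of failure. -/
def CertQ (acc : Q → Bool) (δ : Q → S → Option (Q × Move)) (E : List S) (β : S) :
    CertData Q → Prop
  | ((_, l, r), none) => PartQ acc δ E β l r
  | ((_, l₁, r₁), some (_, l₂, r₂)) => PartQ acc δ E β l₁ r₁ ∧ PartQ acc δ E β l₂ r₂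

theorem cert_of_not_good [Fintype Q] {Pre Suf E : List S} {α β : S} {π k : ℕ} {s0 : Q × ℤ}
    (hPre : 1 ≤ Pre.length) (hSuf : 1 ≤ Suf.length)
    (hCB : CB acc δ (Pre ++ WW E [α, β] π ++ Suf) s0 k)
    (hN : ¬ Good acc δ (Pre ++ WW E [α, β] π ++ Suf) s0 E [α, β] Pre.length π) :
    ∃ x : CertData Q, CertP acc δ E α k x ∧ CertQ acc δ E β x := by
  by_contra hno
  apply hN
  constructor
  · intro i hi t c hc ht
    by_contra hq
    obtain ⟨l, r, hl, h1, h2⟩ := part_complete hi hPre hSuf hCB ht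
    have hw := part_sound h1 h2
    refine hno ⟨((c, l, r), none), ⟨hc, hl, h1, ?_⟩, h2⟩
    intro q hr
    rw [hr] at hw
    exact hq ⟨q, hw⟩
  · intro i₁ hi₁ i₂ hi₂ t₁ t₂ c₁ c₂ hc₁ hc₂ ht₁ ht₂ hw
    by_contra hne
    obtain ⟨l₁, r₁, hl₁, h1, h2⟩ := part_complete hi₁ hPre hSuf hCB ht₁
    obtain ⟨l₂, r₂, hl₂, h3, h4⟩ := part_complete hi₂ hPre hSuf hCB ht₂
    have hw₁ := part_sound h1 h2
    have hw₂ := part_sound h3 h4
    refine hno ⟨((c₁, l₁, r₁), some (c₂, l₂, r₂)),
      ⟨hc₁, hc₂, hne, ?_, hl₁, hl₂, h1, h3⟩, ⟨h2, h4⟩⟩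
    rw [← hw₁, ← hw₂, hw]

/-- A certificate of failure contradicts the through property of a hybrid. -/
theorem cert_contra [Fintype Q] {E : List S} {α β : S} {k : ℕ} {x : CertData Q}
    (hTh : (∀ c ∈ TR acc δ E, ∃ q, wire acc δ E [α, β] c = some (true, q)) ∧
      (∀ c₁ ∈ TR acc δ E, ∀ c₂ ∈ TR acc δ E,
        wire acc δ E [α, β] c₁ = wire acc δ E [α, β] c₂ → c₁ = c₂))
    (hP : CertP acc δ E α k x) (hQ : CertQ acc δ E β x) : False := by
  obtain ⟨⟨c, l, r⟩, y⟩ := x
  cases y with
  | none =>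
    obtain ⟨hc, _, h1, h2⟩ := hP
    have hw := part_sound h1 hQ
    obtain ⟨q, hq⟩ := hTh.1 c hc
    rw [hw] at hq
    exact h2 q hq
  | some y =>
    obtain ⟨c₂, l₂, r₂⟩ := y
    obtain ⟨hc₁, hc₂, hne, hr, _, _, h1, h2⟩ := hP
    obtain ⟨h3, h4⟩ := hQ
    have hw₁ := part_sound h1 h3
    have hw₂ := part_sound h2 h4
    exact hne (hTh.2 c hc₁ c₂ hc₂ (by rw [hw₁, hw₂, hr]))

end Vale.Agent.Lib.P343
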