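import Vale.Agent.Lib.P343.Rev

namespace Vale.Agent.Lib.P343

/-- The word `E z E z ... z E` with `m` copies of `z`. -/
def WW {X : Type} (E z : List X) : ℕ → List X
  | 0 => E
  | m + 1 => WW E z m ++ z ++ E

section WWlemmas

variable {X : Type} (E z : List X)

theorem WW_succ_length (m : ℕ) :
    (WW E z (m + 1)).length = (WW E z m).length + z.length + E.length := by
  simp [WW, add_assoc]

theorem WW_mono {i j : ℕ} (h : i ≤ j) : (WW E z i).length ≤ (WW E z j).length := by
  induction j, h using Nat.le_induction with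
  | base => exact le_refl _
  | succ j _ ih =>
    rw [WW_succ_length]
    omega

theorem WW_suffix (m : ℕ) : ∃ A, WW E z m = A ++ E := by
  cases m with
  | zero => exact ⟨[], rfl⟩
  | succ m => exact ⟨WW E z m ++ z, rfl⟩

theorem WW_factor (i d : ℕ) : ∃ R, WW E z (i + 1 + d) = WW E z i ++ z ++ E ++ R := by
  induction d with
  | zero => exact ⟨[], by simp [WW]⟩
  | succ d ih =>
    obtain ⟨R, hR⟩ := ih
    refine ⟨R ++ z ++ E, ?_⟩
    rw [show i + 1 + (d + 1) = (i + 1 + d) + 1 by omega]
    simp only [WW]
    rw [hR]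
    simp [List.append_assoc]

theorem WW_alt (m : ℕ) : WW E z (m + 1) = E ++ z ++ WW E z m := by
  induction m with
  | zero => rfl
  | succ m ih =>
    show WW E z (m + 1) ++ z ++ E = E ++ z ++ (WW E z m ++ z ++ E)
    rw [ih]
    simp [List.append_assoc]

theorem WW_reverse (m : ℕ) : (WW E z m).reverse = WW E.reverse z.reverse m := by
  induction m with
  | zero => rfl
  | succ m ih =>
    rw [WW, List.reverse_append, List.reverse_append, ih, WW_alt]
    simp [List.append_assoc]

theorem WW_map {Y : Type} (f : X → Y) (m : ℕ) :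
    (WW E z m).map f = WW (E.map f) (z.map f) m := by
  induction m with
  | zero => rfl
  | succ m ih =>
    simp [WW, ih]

end WWlemmas

variable {Q S : Type} {acc : Q → Bool} {δ : Q → S → Option (Q × Move)}

/-- The occurrence of `E z E` in the tape around position `a + |W i|`. -/
theorem chain_occ {Pre Suf E z : List S} {π i : ℕ} (hi : i < π) :
    Occ (E ++ z ++ E) (Pre ++ WW E z π ++ Suf)
      ((Pre.length : ℤ) + (WW E z i).length - E.length) := by
  obtain ⟨R, hR⟩ := WW_factor E z i (π - i - 1)
  rw [show i + 1 + (π - i - 1) = π by omega] at hR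
  obtain ⟨A, hA⟩ := WW_suffix E z i
  have e1 : Pre ++ WW E z π ++ Suf = (Pre ++ A) ++ (E ++ z ++ E) ++ (R ++ Suf) := by
    rw [hR, hA]
    simp [List.append_assoc]
  have e2 : (Pre.length : ℤ) + (WW E z i).length - E.length = ((Pre ++ A).length : ℤ) := by
    rw [hA]
    simp only [List.length_append]
    push_cast
    ring
  rw [e1, e2]
  exact occ_append _ _ _

/-- The conditions on the computation that make the chain of wires go through. -/
structure Good [Fintype Q] (acc : Q → Bool) (δ : Q → S → Option (Q × Move)) (T : List S)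
    (s0 : Q × ℤ) (E z : List S) (a : ℤ) (π : ℕ) : Prop where
  h1 : ∀ i < π, ∀ t c, c ∈ TR acc δ E → run acc δ T s0 t = some (c, a + (WW E z i).length) →
    ∃ q, wire acc δ E z c = some (true, q)
  h2 : ∀ i₁ < π, ∀ i₂ < π, ∀ t₁ t₂ c₁ c₂, c₁ ∈ TR acc δ E → c₂ ∈ TR acc δ E →
    run acc δ T s0 t₁ = some (c₁, a + (WW E z i₁).length) →
    run acc δ T s0 t₂ = some (c₂, a + (WW E z i₂).length) →
    wire acc δ E z c₁ = wire acc δ E z c₂ → c₁ = c₂

/-- A step of the chain. -/
theorem chain_step [Fintype Q] {Pre Suf E z : List S} {π i : ℕ} {s0 : Q × ℤ} (hE : E ≠ [])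
    (hi : i < π) {t : ℕ} {c q : Q}
    (ht : run acc δ (Pre ++ WW E z π ++ Suf) s0 t =
      some (c, (Pre.length : ℤ) + (WW E z i).length))
    (hw : wire acc δ E z c = some (true, q)) :
    q ∈ TR acc δ E ∧ ∃ t', run acc δ (Pre ++ WW E z π ++ Suf) s0 t' =
      some (q, (Pre.length : ℤ) + (WW E z (i + 1)).length) := by
  refine ⟨wire_right_mem hE hw, ?_⟩
  obtain ⟨n, hn⟩ := exits_of_out_right hw
  have h1 := run_embed (acc := acc) (δ := δ) (chain_occ (Pre := Pre) (Suf := Suf) hi) hn
  simp only at h1
  refine ⟨t + n, ?_⟩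
  rw [run_add_of acc δ (c' := (c, (Pre.length : ℤ) + (WW E z i).length)) ht]
  have e1 : (Pre.length : ℤ) + (WW E z i).length - E.length + E.length =
      (Pre.length : ℤ) + (WW E z i).length := by ring
  have e2 : (Pre.length : ℤ) + (WW E z i).length - E.length + ((E ++ z ++ E).length : ℤ) =
      (Pre.length : ℤ) + (WW E z (i + 1)).length := by
    rw [WW_succ_length]
    simp only [List.length_append]
    push_cast
    ring
  rw [e1, e2] at h1
  exact h1

open Classical in
/-- The next state along a wire. -/
noncomputable def nextSt (w : Q → Res Q) (c : Q) : Q :=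
  if h : ∃ q, w c = some (true, q) then h.choose else c

theorem nextSt_eq {w : Q → Res Q} {c q : Q} (h : w c = some (true, q)) : nextSt w c = q := by
  unfold nextSt
  have he : ∃ q, w c = some (true, q) := ⟨q, h⟩
  rw [dif_pos he]
  have h2 : some (true, he.choose) = some (true, q) := he.choose_spec.symm.trans h
  simpa using h2

/-- The chain lemma: under the conditions of `Good`, a visit of the first wire in a right-exit
state of `E` leads to the end of the chain in the same state. -/
theorem chain [Fintype Q] {Pre Suf E z : List S} {s0 : Q × ℤ} (hE : E ≠ [])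
    (hG : Good acc δ (Pre ++ WW E z (Fintype.card Q).factorial ++ Suf) s0 E z Pre.length
      (Fintype.card Q).factorial)
    {c : Q} {t0 : ℕ} (hc : c ∈ TR acc δ E)
    (ht : run acc δ (Pre ++ WW E z (Fintype.card Q).factorial ++ Suf) s0 t0 =
      some (c, (Pre.length : ℤ) + (E.length : ℤ))) :
    ∃ t, run acc δ (Pre ++ WW E z (Fintype.card Q).factorial ++ Suf) s0 t =
      some (c, (Pre.length : ℤ) + (WW E z (Fintype.card Q).factorial).length) := by
  set π := (Fintype.card Q).factorial with hπ
  set T := Pre ++ WW E z π ++ Suf with hT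
  set f : Q → Q := nextSt (wire acc δ E z) with hf
  have hvis : ∀ i, i ≤ π → f^[i] c ∈ TR acc δ E ∧
      ∃ t, run acc δ T s0 t = some (f^[i] c, (Pre.length : ℤ) + (WW E z i).length) := by
    intro i
    induction i with
    | zero =>
      intro _
      exact ⟨hc, t0, ht⟩
    | succ i ih =>
      intro hi
      obtain ⟨h1, t, h2⟩ := ih (by omega)
      obtain ⟨q, hq⟩ := hG.h1 i (by omega) t _ h1 h2
      have hfq : f (f^[i] c) = q := nextSt_eq hq
      rw [Function.iterate_succ_apply', hfq]
      exact chain_step hE (by omega) h2 hq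
  have hwire : ∀ i, i < π → wire acc δ E z (f^[i] c) = some (true, f^[i + 1] c) := by
    intro i hi
    obtain ⟨h1, t, h2⟩ := hvis i (by omega)
    obtain ⟨q, hq⟩ := hG.h1 i hi t _ h1 h2
    have hfq : f (f^[i] c) = q := nextSt_eq hq
    rw [Function.iterate_succ_apply', hfq]
    exact hq
  have hcardπ : Fintype.card Q ≤ π := Nat.self_le_factorial _
  -- pigeonhole
  obtain ⟨x, y, hxy, hg⟩ := Fintype.exists_ne_map_eq_of_card_lt
    (fun i : Fin (Fintype.card Q + 1) => f^[i.val] c) (by simp)
  have key : ∀ a b : ℕ, a < b → b ≤ Fintype.card Q → f^[a] c = f^[b] c → π = 0 ∨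
      f^[π] c = c := by
    intro a b hab hb heq
    right
    set L := b - a with hL
    have hLpos : 0 < L := by omega
    have hLle : L ≤ Fintype.card Q := by omega
    have back : ∀ a', a' + L ≤ π → f^[a'] c = f^[a' + L] c → c = f^[L] c := by
      intro a'
      induction a' with
      | zero => intro _ h; simpa using h
      | succ a' ih =>
        intro hle h
        apply ih (by omega)
        obtain ⟨h1, t1, h2⟩ := hvis a' (by omega)
        obtain ⟨h3, t2, h4⟩ := hvis (a' + L) (by omega)
        refine hG.h2 a' (by omega) (a' + L) (by omega) t1 t2 _ _ h1 h3 h2 h4 ?_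
        rw [hwire a' (by omega), hwire (a' + L) (by omega)]
        rw [show a' + L + 1 = a' + 1 + L by omega, h]
    have hper : Function.IsPeriodicPt f L c := by
      have := back a (by omega) (by rw [show a + L = b by omega]; exact heq)
      exact this.symm
    have hdvd : L ∣ π := Nat.dvd_factorial hLpos hLle
    obtain ⟨m, hm⟩ := hdvd
    have := hper.const_mul m
    rw [hm, mul_comm]
    exact this
  have hfin : f^[π] c = c := by
    rcases lt_or_gt_of_ne (fun h => hxy (Fin.ext h) : x.val ≠ y.val) with h | h
    · rcases key x.val y.val h (by omega) hg with h0 | h0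
      · exact absurd h0 (Nat.factorial_ne_zero _)
      · exact h0
    · rcases key y.val x.val h (by omega) hg.symm with h0 | h0
      · exact absurd h0 (Nat.factorial_ne_zero _)
      · exact h0
  obtain ⟨_, t, ht'⟩ := hvis π (le_refl _)
  rw [hfin] at ht'
  exact ⟨t, ht'⟩

end Vale.Agent.Lib.P343
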