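import Vale.Agent.Lib.P343.Run

namespace Vale.Agent.Lib.P343

variable {Q S : Type} {acc : Q → Bool} {δ : Q → S → Option (Q × Move)}

theorem run_zero_eq {x : List S} {c c' : Q × ℤ} (h : run acc δ x c 0 = some c') : c' = c := by
  simpa using h.symm

/-- The last configuration before a computation leaves on the right is on the last cell. -/
theorem exit_right_prev {x : List S} {c : Q × ℤ} {q : Q} {n : ℕ} (hc : 0 ≤ c.2 ∧ c.2 < x.length)
    (h : run acc δ x c n = some (q, (x.length : ℤ))) :
    ∃ m q', n = m + 1 ∧ run acc δ x c m = some (q', (x.length : ℤ) - 1) := by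
  cases n with
  | zero =>
    have := run_zero_eq h
    have h2 := congrArg Prod.snd this
    simp only at h2
    omega
  | succ m =>
    rw [run_succ] at h
    cases hr : run acc δ x c m with
    | none => simp [hr] at h
    | some c1 =>
      simp only [hr, Option.bind_some] at h
      have h1 := step_some_inside acc δ h
      have h2 := step_some_move acc δ h
      simp only at h2
      refine ⟨m, c1.1, rfl, ?_⟩
      rw [hr]
      congr 1
      ext
      · rfl
      · simp only; omega

/-- The last configuration before a computation leaves on the left is on the first cell. -/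
theorem exit_left_prev {x : List S} {c : Q × ℤ} {q : Q} {n : ℕ} (hc : 0 ≤ c.2 ∧ c.2 < x.length)
    (h : run acc δ x c n = some (q, -1)) :
    ∃ m q', n = m + 1 ∧ run acc δ x c m = some (q', 0) := by
  cases n with
  | zero =>
    have := run_zero_eq h
    have h2 := congrArg Prod.snd this
    simp only at h2
    omega
  | succ m =>
    rw [run_succ] at h
    cases hr : run acc δ x c m with
    | none => simp [hr] at h
    | some c1 =>
      simp only [hr, Option.bind_some] at h
      have h1 := step_some_inside acc δ h
      have h2 := step_some_move acc δ h
      simp only at h2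
      refine ⟨m, c1.1, rfl, ?_⟩
      rw [hr]
      congr 1
      ext
      · rfl
      · simp only; omega

/-- Before its last configuration, a computation is inside the tape, when that last configuration
is outside. -/
theorem run_inside_before {x : List S} {c e e' : Q × ℤ} {n m : ℕ}
    (hn : run acc δ x c n = some e)
    (hm : run acc δ x c m = some e') (hlt : m < n) : 0 ≤ e'.2 ∧ e'.2 < x.length := by
  by_contra hc
  have := run_outside_last acc δ hm hc hn
  omega

/-- A configuration outside a factor is one of two cells. -/
theorem outside_cases {x : List S} {c e : Q × ℤ} {n : ℕ} (hc : 0 ≤ c.2 ∧ c.2 < x.length)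
    (h : run acc δ x c n = some e) (ho : ¬ (0 ≤ e.2 ∧ e.2 < x.length)) :
    e = (e.1, -1) ∨ e = (e.1, (x.length : ℤ)) := by
  have := run_bounds acc δ hc n e h
  have h3 : e.2 = -1 ∨ e.2 = x.length := by omega
  rcases h3 with h3 | h3
  · left; ext <;> simp [h3]
  · right; ext <;> simp [h3]

/-- A computation that leaves the tape on the right from a cell to the left of a suffix leaves the
suffix on the right, entered at its first cell. -/
theorem suffix_exit {B y : List S} {a : ℤ} (hO : Occ B y a) (hend : a + B.length = y.length)
    (hB : B ≠ []) {q : Q} (n : ℕ) :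
    ∀ c : Q × ℤ, c.2 ≤ a → run acc δ y c n = some (q, (y.length : ℤ)) →
      ∃ p, ExitsR acc δ B (p, 0) q := by
  have hlen : 0 < (B.length : ℤ) := by
    have := List.length_pos_iff.mpr hB
    omega
  induction n using Nat.strong_induction_on with
  | _ n ih =>
    intro c hc h
    by_cases hca : c.2 = a
    · -- at the start of the suffix
      have h' : run acc δ y ((c.1, (0 : ℤ)).1, a + (c.1, (0 : ℤ)).2) n = some (q, (y.length : ℤ)) := by
        have : ((c.1, (0 : ℤ)).1, a + (c.1, (0 : ℤ)).2) = c := by
          ext <;> simp [hca]
        rw [this]; exact h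
      rcases run_back hO n _ h' with h1 | ⟨m, hm, e, he, ho⟩
      · refine ⟨c.1, n, ?_⟩
        rw [h1]
        simp only
        congr 2
        omega
      · rcases outside_cases (c := (c.1, (0 : ℤ))) (by simp; omega) he ho with h3 | h3
        · -- left exit: apply the induction hypothesis
          have he' : run acc δ B (c.1, (0 : ℤ)) m = some (e.1, -1) := by rw [← h3]; exact he
          have h4 := run_embed (acc := acc) (δ := δ) hO he'
          have h5 : ((c.1, (0 : ℤ)).1, a + (c.1, (0 : ℤ)).2) = c := by
            ext <;> simp [hca]
          rw [h5] at h4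
          have h6 := run_add_of acc δ h4 (n - m)
          rw [Nat.add_sub_cancel' (le_of_lt hm), h] at h6
          have hlt : n - m < n := by
            have h7 : 0 < n := by omega
            have h8 : 0 < m ∨ m = 0 := by omega
            -- the left exit takes at least one step
            rcases h8 with h8 | h8
            · omega
            · subst h8
              have := run_zero_eq he'
              have h9 := congrArg Prod.snd this
              simp only at h9
              omega
          exact ih (n - m) hlt _ (by simp only; omega) h6.symm
        · -- right exit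
          have he' : run acc δ B (c.1, (0 : ℤ)) m = some (e.1, (B.length : ℤ)) := by
            rw [← h3]; exact he
          have h4 := run_embed (acc := acc) (δ := δ) hO he'
          have h5 : ((c.1, (0 : ℤ)).1, a + (c.1, (0 : ℤ)).2) = c := by
            ext <;> simp [hca]
          rw [h5] at h4
          simp only [hend] at h4
          have hu := (run_outside_unique acc δ h4 h (by simp) (by simp)).2
          have hq : e.1 = q := congrArg Prod.fst hu
          exact ⟨c.1, m, by rw [he', hq]⟩
    · -- strictly to the left of the suffix: make a step
      have hlt : c.2 < a := lt_of_le_of_ne hc hca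
      cases n with
      | zero =>
        have := run_zero_eq h
        have h2 := congrArg Prod.snd this
        simp only at h2
        omega
      | succ m =>
        rw [run_succ'] at h
        cases hs : step acc δ y c with
        | none => simp [hs] at h
        | some c1 =>
          rw [hs] at h
          simp only [Option.bind_some] at h
          have h2 := step_some_move acc δ hs
          exact ih m (by omega) c1 (by omega) h

open Classical in
/-- The states in which a word can be left on the right, entered at its first cell. -/
noncomputable def TR [Fintype Q] (acc : Q → Bool) (δ : Q → S → Option (Q × Move)) (x : List S) :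
    Finset Q :=
  Finset.univ.filter (fun q => ∃ p, ExitsR acc δ x (p, 0) q)

theorem mem_TR [Fintype Q] {x : List S} {q : Q} :
    q ∈ TR acc δ x ↔ ∃ p, ExitsR acc δ x (p, 0) q := by
  simp [TR]

theorem TR_suffix [Fintype Q] {A B : List S} (hB : B ≠ []) : TR acc δ (A ++ B) ⊆ TR acc δ B := by
  intro q hq
  rw [mem_TR] at hq ⊢
  obtain ⟨p, n, hn⟩ := hq
  exact suffix_exit (occ_right A B) (by simp) hB n (p, 0) (by simp) hn

/-- The wire of `E u E`: enter `u` from the left in a state, and look at the exit of the whole. -/
noncomputable def wire (acc : Q → Bool) (δ : Q → S → Option (Q × Move)) (E u : List S) (c : Q) :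
    Option (Bool × Q) :=
  out acc δ (E ++ u ++ E) (c, (E.length : ℤ))

theorem wire_right_mem [Fintype Q] {E u : List S} (hE : E ≠ []) {c q : Q}
    (h : wire acc δ E u c = some (true, q)) : q ∈ TR acc δ E := by
  rw [mem_TR]
  obtain ⟨n, hn⟩ := exits_of_out_right h
  refine suffix_exit (a := ((E ++ u).length : ℤ)) (y := E ++ u ++ E) (occ_right _ _)
    (by simp only [List.length_append]; push_cast; omega) hE n _ ?_ hn
  simp

/-- First exit: a computation leaving `E u E` on the right from the first cell goes through a
right exit of the first `E`. -/
theorem first_exit {E u : List S} (hE : E ≠ []) {p q : Q}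
    (h : ExitsR acc δ (E ++ u ++ E) (p, 0) q) :
    ∃ c, ExitsR acc δ E (p, 0) c ∧ wire acc δ E u c = some (true, q) := by
  have hlen : 0 < (E.length : ℤ) := by
    have := List.length_pos_iff.mpr hE
    omega
  obtain ⟨n, hn⟩ := h
  have hO : Occ E (E ++ u ++ E) 0 := by
    have := occ_left E (u ++ E)
    simpa [List.append_assoc] using this
  have h' : run acc δ (E ++ u ++ E) ((p, (0 : ℤ)).1, 0 + (p, (0 : ℤ)).2) n =
      some (q, ((E ++ u ++ E).length : ℤ)) := by simpa using hn
  have hol : ¬ (0 ≤ ((E ++ u ++ E).length : ℤ) - 0 ∧
      ((E ++ u ++ E).length : ℤ) - 0 < E.length) := by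
    simp
    omega
  rcases run_back hO n _ h' with h1 | ⟨m, hm, e, he, ho⟩
  · -- the computation on `E` has gone beyond its end: impossible
    have hb := run_bounds acc δ (c := (p, (0 : ℤ))) (by simp; omega) n _ h1
    simp at hb
    omega
  · rcases outside_cases (c := (p, (0 : ℤ))) (by simp; omega) he ho with h3 | h3
    · -- left exit: impossible
      exfalso
      have he' : run acc δ E (p, (0 : ℤ)) m = some (e.1, -1) := by rw [← h3]; exact he
      have h4 := run_embed (acc := acc) (δ := δ) hO he'
      simp only [zero_add] at h4
      exact exits_not_both ⟨n, hn⟩ ⟨m, h4⟩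
    · have he' : run acc δ E (p, (0 : ℤ)) m = some (e.1, (E.length : ℤ)) := by rw [← h3]; exact he
      refine ⟨e.1, ⟨m, he'⟩, ?_⟩
      have h4 := run_embed (acc := acc) (δ := δ) hO he'
      simp only [zero_add] at h4
      unfold wire
      rw [← out_of_reach h4]
      exact out_eq_right ⟨n, hn⟩

/-- The wires of `E u E` are all right exits and injective when the right-exit set does not
shrink. -/
theorem through [Fintype Q] {E u : List S} (hE : E ≠ [])
    (hcard : (TR acc δ E).card ≤ (TR acc δ (E ++ u ++ E)).card) :
    (∀ c ∈ TR acc δ E, ∃ q, wire acc δ E u c = some (true, q)) ∧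
      (∀ c₁ ∈ TR acc δ E, ∀ c₂ ∈ TR acc δ E,
        wire acc δ E u c₁ = wire acc δ E u c₂ → c₁ = c₂) := by
  classical
  set A := TR acc δ E with hA
  set B := TR acc δ (E ++ u ++ E) with hB
  have hBA : B ⊆ A := by
    have : E ++ u ++ E = (E ++ u) ++ E := rfl
    exact TR_suffix hE
  have hAB : A = B := (Finset.eq_of_subset_of_card_le hBA hcard).symm
  set φ : Q → Option (Bool × Q) := wire acc δ E u with hφ
  have hsub : B.image (fun q => some (true, q)) ⊆ A.image φ := by
    intro x hx
    rw [Finset.mem_image] at hx ⊢
    obtain ⟨q, hq, rfl⟩ := hx
    rw [hB, mem_TR] at hq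
    obtain ⟨p, hp⟩ := hq
    obtain ⟨c, hc, hw⟩ := first_exit hE hp
    exact ⟨c, by rw [hA, mem_TR]; exact ⟨p, hc⟩, hw⟩
  have hinj : Function.Injective (fun q : Q => (some (true, q) : Option (Bool × Q))) := by
    intro a b h
    simpa using h
  have hc1 : (B.image (fun q => some (true, q))).card = A.card := by
    rw [Finset.card_image_of_injective _ hinj, hAB]
  have hc2 : (A.image φ).card ≤ A.card := Finset.card_image_le
  have heq : B.image (fun q => some (true, q)) = A.image φ :=
    Finset.eq_of_subset_of_card_le hsub (by omega)
  constructor
  · intro c hc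
    have : φ c ∈ B.image (fun q => some (true, q)) := by
      rw [heq]; exact Finset.mem_image_of_mem _ hc
    rw [Finset.mem_image] at this
    obtain ⟨q, _, hq⟩ := this
    exact ⟨q, hq.symm⟩
  · have hcardim : (A.image φ).card = A.card := by
      rw [← heq]; exact hc1
    have := Finset.card_image_iff.mp hcardim
    intro c₁ h₁ c₂ h₂ h
    exact this h₁ h₂ h

end Vale.Agent.Lib.P343
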