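import Mathlib

namespace Vale.Agent.Lib.P343

/-- Head moves of a two-way automaton. -/
inductive Move
  | left
  | stay
  | right
  deriving DecidableEq

/-- The displacement of a head move. -/
def Move.val : Move → ℤ
  | .left => -1
  | .stay => 0
  | .right => 1

/-- Tape symbols: the two endmarkers and the input letters. -/
inductive TapeSym (Γ : Type)
  | lend
  | rend
  | letter (a : Γ)

/-- The tape holding an input word between its endmarkers. -/
def tape {Γ : Type} (w : List Γ) : List (TapeSym Γ) :=
  TapeSym.lend :: (w.map TapeSym.letter ++ [TapeSym.rend])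

/-- The content of cell number `i` of a tape; there is no symbol outside the tape. -/
def cell {S : Type} (x : List S) (i : ℤ) : Option S :=
  if 0 ≤ i then x[i.toNat]? else none

/-- One deterministic step on a tape: the computation stops in an accepting state, outside
the tape, or on a missing transition. -/
def step {Q S : Type} (acc : Q → Bool) (δ : Q → S → Option (Q × Move)) (x : List S)
    (c : Q × ℤ) : Option (Q × ℤ) :=
  if acc c.1 = true then none
  else
    match cell x c.2 with
    | none => none
    | some s => (δ c.1 s).map (fun r => (r.1, c.2 + r.2.val))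

/-- The configuration after `n` deterministic steps, if the computation lasts that long. -/
def run {Q S : Type} (acc : Q → Bool) (δ : Q → S → Option (Q × Move)) (x : List S)
    (c : Q × ℤ) : ℕ → Option (Q × ℤ)
  | 0 => some c
  | n + 1 => (run acc δ x c n).bind (step acc δ x)

/-- A two-way deterministic finite automaton: at most one transition for each state and
symbol, and the head never moves beyond an endmarker. -/
structure TwoDFA (Q Γ : Type) where
  start : Q
  acc : Q → Bool
  δ : Q → TapeSym Γ → Option (Q × Move)
  no_left : ∀ q p m, δ q TapeSym.lend = some (p, m) → m ≠ Move.left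
  no_right : ∀ q p m, δ q TapeSym.rend = some (p, m) → m ≠ Move.right

/-- The configuration of the automaton on input `w` at time `t`; cell 0 holds the left endmarker,
and the computation starts on it. -/
def TwoDFA.trace {Q Γ : Type} (M : TwoDFA Q Γ) (w : List Γ) (t : ℕ) : Option (Q × ℤ) :=
  run M.acc M.δ (tape w) (M.start, 0) t

/-- Acceptance: the computation on `w` reaches an accepting state. -/
def TwoDFA.Accepts {Q Γ : Type} (M : TwoDFA Q Γ) (w : List Γ) : Prop :=
  ∃ t q i, M.trace w t = some (q, i) ∧ M.acc q = true

/-- Between times `t` and `t + 1` the head crosses the boundary between cells `b` and `b + 1`. -/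
def TwoDFA.CrossesAt {Q Γ : Type} (M : TwoDFA Q Γ) (w : List Γ) (b : ℤ) (t : ℕ) : Prop :=
  ∃ q q' i i', M.trace w t = some (q, i) ∧ M.trace w (t + 1) = some (q', i') ∧
    ((i = b ∧ i' = b + 1) ∨ (i = b + 1 ∧ i' = b))

/-- On input `w`, while the head stays off both endmarkers (from time `t₁` to time `t₂`, a part of
one pass over the input), it crosses each boundary between two cells at most `k` times. -/
def TwoDFA.PassCrossingBound {Q Γ : Type} (M : TwoDFA Q Γ) (w : List Γ) (k : ℕ) : Prop :=
  ∀ (b : ℤ) (t₁ t₂ : ℕ),
    (∀ t, t₁ ≤ t → t ≤ t₂ → ∃ q i, M.trace w t = some (q, i) ∧ 1 ≤ i ∧ i ≤ (w.length : ℤ)) →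
    ∀ s : Finset ℕ, (∀ t ∈ s, t₁ ≤ t ∧ t < t₂ ∧ M.CrossesAt w b t) → s.card ≤ k

/-- A two-way nondeterministic finite automaton; the head never moves beyond an endmarker. -/
structure TwoNFA (Q Γ : Type) where
  start : Q
  acc : Q → Bool
  δ : Q → TapeSym Γ → Set (Q × Move)
  no_left : ∀ q p m, (p, m) ∈ δ q TapeSym.lend → m ≠ Move.left
  no_right : ∀ q p m, (p, m) ∈ δ q TapeSym.rend → m ≠ Move.right

/-- One nondeterministic step on the tape of `w`. -/
def TwoNFA.Step {Q Γ : Type} (A : TwoNFA Q Γ) (w : List Γ) (c c' : Q × ℤ) : Prop :=
  ∃ s m, cell (tape w) c.2 = some s ∧ (c'.1, m) ∈ A.δ c.1 s ∧ c'.2 = c.2 + m.val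

/-- Acceptance: some finite computation on `w` reaches an accepting state. -/
def TwoNFA.Accepts {Q Γ : Type} (A : TwoNFA Q Γ) (w : List Γ) : Prop :=
  ∃ c, Relation.ReflTransGen (A.Step w) (A.start, 0) c ∧ A.acc c.1 = true

/-- A one-way automaton never moves its head to the left. -/
def TwoNFA.OneWay {Q Γ : Type} (A : TwoNFA Q Γ) : Prop :=
  ∀ q s p m, (p, m) ∈ A.δ q s → m ≠ Move.left

/-- A letter of one-way liveness on `n` points: the edges between two consecutive columns. -/
abbrev Letter (n : ℕ) := Fin n → Fin n → Bool

/-- A path through the columns of a word from point `i` of the first column to point `j` of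
the last column. -/
def Conn {n : ℕ} : List (Letter n) → Fin n → Fin n → Prop
  | [], i, j => i = j
  | g :: l, i, j => ∃ m, g i m = true ∧ Conn l m j

/-- One-way liveness (Sakoda-Sipser): a word is live if it has a path from its first column to
its last column. -/
def Live {n : ℕ} (w : List (Letter n)) : Prop := ∃ i j, Conn w i j

end Vale.Agent.Lib.P343
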