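import Vale.Agent.Lib.P343.Cert

namespace Vale.Agent.Lib.P343

section Letters

variable {n : ℕ}

/-- All edges going into the points of `Y`. -/
def aL (Y : Finset (Fin n)) : Letter n := fun _ j => decide (j ∈ Y)

/-- All edges going out of the points of `X`. -/
def bL (X : Finset (Fin n)) : Letter n := fun i _ => decide (i ∈ X)

/-- All edges. -/
def oneL : Letter n := fun _ _ => true

theorem conn_append (x y : List (Letter n)) (i j : Fin n) :
    Conn (x ++ y) i j ↔ ∃ m, Conn x i m ∧ Conn y m j := by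
  induction x generalizing i with
  | nil =>
    simp only [List.nil_append, Conn]
    constructor
    · intro h; exact ⟨i, rfl, h⟩
    · rintro ⟨m, rfl, h⟩; exact h
  | cons g l ih =>
    simp only [List.cons_append, Conn]
    constructor
    · rintro ⟨m, h1, h2⟩
      obtain ⟨m', h3, h4⟩ := (ih m).mp h2
      exact ⟨m', ⟨m, h1, h3⟩, h4⟩
    · rintro ⟨m', ⟨m, h1, h3⟩, h4⟩
      exact ⟨m, h1, (ih m).mpr ⟨m', h3, h4⟩⟩

/-- A word is full when it connects every point of its first column with every point of its last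
column. -/
def Full (x : List (Letter n)) : Prop := x ≠ [] ∧ ∀ i j, Conn x i j

theorem full_one : Full ([oneL] : List (Letter n)) := by
  refine ⟨by simp, ?_⟩
  intro i j
  exact ⟨j, rfl, rfl⟩

theorem full_mid {E : List (Letter n)} (hE : Full E) {Y X : Finset (Fin n)} {y : Fin n}
    (hy : y ∈ Y) (hx : y ∈ X) : Full (E ++ [aL Y, bL X] ++ E) := by
  refine ⟨by simp [hE.1], ?_⟩
  intro i j
  rw [conn_append]
  refine ⟨j, ?_, hE.2 j j⟩
  rw [conn_append]
  refine ⟨i, hE.2 i i, y, by simp [aL, hy], j, by simp [bL, hx], rfl⟩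

theorem not_live_mid (A B : List (Letter n)) (S : Finset (Fin n)) :
    ¬ Live (A ++ [aL S, bL Sᶜ] ++ B) := by
  rintro ⟨i, j, h⟩
  rw [conn_append] at h
  obtain ⟨m, h1, _⟩ := h
  rw [conn_append] at h1
  obtain ⟨m', _, y, h2, m'', h3, _⟩ := h1
  simp only [aL, decide_eq_true_eq] at h2
  simp only [bL, decide_eq_true_eq, Finset.mem_compl] at h3
  exact h3 h2

theorem WW_not_live (E : List (Letter n)) (S : Finset (Fin n)) {π : ℕ} (hπ : 0 < π) :
    ¬ Live (WW E [aL S, bL Sᶜ] π) := by
  obtain ⟨m, rfl⟩ : ∃ m, π = m + 1 := ⟨π - 1, by omega⟩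
  exact not_live_mid _ _ S

theorem live_of_full {E : List (Letter n)} (hE : Full E) (pt : Fin n) : Live E :=
  ⟨pt, pt, hE.2 pt pt⟩

end Letters

section Machine

variable {Q Γ : Type}

theorem tape_eq (w : List Γ) :
    tape w = [TapeSym.lend] ++ w.map TapeSym.letter ++ [TapeSym.rend] := by
  simp [tape]

theorem tape_length (w : List Γ) : (tape w).length = w.length + 2 := by
  simp [tape]

theorem CB_of_pass {M : TwoDFA Q Γ} {w : List Γ} {k : ℕ} (h : M.PassCrossingBound w k) :
    CB M.acc M.δ (tape w) (M.start, 0) k := by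
  intro b t₁ t₂ hin s hs
  refine h b t₁ t₂ ?_ s ?_
  · intro t h1 h2
    obtain ⟨q, i, h3, h4, h5⟩ := hin t h1 h2
    rw [tape_length] at h5
    push_cast at h5
    exact ⟨q, i, h3, h4, by omega⟩
  · intro t ht
    obtain ⟨h1, h2, h3⟩ := hs t ht
    exact ⟨h1, h2, h3⟩

variable {S : Type} {acc : Q → Bool} {δ : Q → S → Option (Q × Move)}

/-- Transfer of acceptance from `E` to `E z E ... z E`. -/
theorem accepts_transfer [Fintype Q] {l r : S} {E z : List S} {q0 : Q} (hE : E ≠ [])
    (hnl : ∀ q p m, δ q l = some (p, m) → m ≠ Move.left)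
    (hnr : ∀ q p m, δ q r = some (p, m) → m ≠ Move.right)
    (hGR : Good acc δ ([l] ++ WW E z (Fintype.card Q).factorial ++ [r]) (q0, 0) E z
      ([l].length) (Fintype.card Q).factorial)
    (hGL : Good acc (revδ δ) ([r] ++ WW E.reverse z.reverse (Fintype.card Q).factorial ++ [l])
      (mir ([l] ++ WW E z (Fintype.card Q).factorial ++ [r]) (q0, 0)) E.reverse z.reverse
      ([r].length) (Fintype.card Q).factorial)
    (hacc : ∃ t e, run acc δ ([l] ++ E ++ [r]) (q0, 0) t = some e ∧ acc e.1 = true) :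
    ∃ t e, run acc δ ([l] ++ WW E z (Fintype.card Q).factorial ++ [r]) (q0, 0) t = some e ∧
      acc e.1 = true := by
  set π := (Fintype.card Q).factorial with hπ
  set W := WW E z π with hW
  obtain ⟨t, e, ht, he⟩ := hacc
  obtain ⟨A, hA⟩ := WW_suffix E z π
  obtain ⟨B, hB⟩ : ∃ B, W = E ++ B := by
    cases hπ' : π with
    | zero => exact ⟨[], by simp [hW, hπ', WW]⟩
    | succ m =>
      rw [hW, hπ', WW_alt]
      exact ⟨z ++ WW E z m, by simp [List.append_assoc]⟩
  have hrevT : ([l] ++ W ++ [r]).reverse =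
      [r] ++ WW E.reverse z.reverse π ++ [l] := by
    rw [← WW_reverse, ← hW]
    simp
  have hlenT : (([l] ++ W ++ [r]).length : ℤ) = (W.length : ℤ) + 2 := by
    simp only [List.length_append, List.length_singleton]
    push_cast
    ring
  have hErev : E.reverse ≠ [] := by simpa using hE
  refine sim_core (l := l) (r := r) (E := E) (W := W) (A := A) (B := B) hE (hW.trans hA) hB hnl hnr
    ?_ ?_ t q0
    0 0 (Or.inl ⟨rfl, rfl⟩) ⟨0, rfl⟩ e ht he
  · intro q hq t1 ht1
    have := chain hE hGR hq (t0 := t1) (by simpa using ht1)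
    simpa using this
  · intro q hq t1 ht1
    have h1 := run_rev_of ht1
    rw [hrevT, hlenT] at h1
    have e1 : (W.length : ℤ) + 2 - 1 - ((W.length : ℤ) - E.length) =
        ([r].length : ℤ) + (E.reverse.length : ℤ) := by
      simp only [List.length_singleton, List.length_reverse]
      push_cast
      ring
    rw [e1] at h1
    obtain ⟨t2, ht2⟩ := chain hErev hGL hq h1
    refine ⟨t2, ?_⟩
    rw [← hrevT] at ht2
    have h2 := run_of_rev ht2
    rw [h2, hlenT]
    congr 2
    rw [← hπ, ← WW_reverse, ← hW]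
    simp only [List.length_singleton, List.length_reverse]
    push_cast
    ring

end Machine

end Vale.Agent.Lib.P343
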