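import Vale.Agent.Lib.P343.Letters

namespace Vale.Agent.Lib.P343

variable {n : ℕ}

/-- The one-way nondeterministic automaton for one-way liveness on `n` points: it guesses
a point on the left endmarker, follows edges through the letters, and accepts on the right
endmarker. Its states are the `n` points, a start state and an accepting state. -/
def lvTrans : Fin n ⊕ Bool → TapeSym (Letter n) → Set ((Fin n ⊕ Bool) × Move)
  | Sum.inr false, TapeSym.lend => {r | ∃ v, r = (Sum.inl v, Move.right)}
  | Sum.inl v, TapeSym.letter g => {r | ∃ v', g v v' = true ∧ r = (Sum.inl v', Move.right)}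
  | Sum.inl _, TapeSym.rend => {(Sum.inr true, Move.stay)}
  | _, _ => ∅

/-- The accepting state of the automaton for one-way liveness. -/
def lvAcc : Fin n ⊕ Bool → Bool
  | Sum.inr true => true
  | _ => false

/-- The one-way nondeterministic automaton for one-way liveness on `n` points. -/
def lvA (n : ℕ) : TwoNFA (Fin n ⊕ Bool) (Letter n) where
  start := Sum.inr false
  acc := lvAcc
  δ := lvTrans
  no_left := by
    intro q p m h
    cases q with
    | inl v => simp [lvTrans] at h
    | inr b =>
      cases b with
      | false =>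
        simp only [lvTrans, Set.mem_ofPred_eq, Prod.mk.injEq] at h
        obtain ⟨_, _, rfl⟩ := h
        simp
      | true => simp [lvTrans] at h
  no_right := by
    intro q p m h
    cases q with
    | inl v =>
      simp only [lvTrans, Set.mem_singleton_iff, Prod.mk.injEq] at h
      obtain ⟨_, rfl⟩ := h
      simp
    | inr b =>
      cases b <;> simp [lvTrans] at h

theorem lvA_oneWay : (lvA n).OneWay := by
  intro q s p m h
  simp only [lvA] at h
  cases q with
  | inl v =>
    cases s with
    | lend => simp [lvTrans] at h
    | rend =>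
      simp only [lvTrans, Set.mem_singleton_iff, Prod.mk.injEq] at h
      obtain ⟨_, rfl⟩ := h
      simp
    | letter g =>
      simp only [lvTrans, Set.mem_ofPred_eq, Prod.mk.injEq] at h
      obtain ⟨_, _, _, rfl⟩ := h
      simp
  | inr b =>
    cases b with
    | false =>
      cases s with
      | lend =>
        simp only [lvTrans, Set.mem_ofPred_eq, Prod.mk.injEq] at h
        obtain ⟨_, _, rfl⟩ := h
        simp
      | rend => simp [lvTrans] at h
      | letter g => simp [lvTrans] at h
    | true =>
      cases s <;> simp [lvTrans] at h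

theorem cell_tape_zero (w : List (Letter n)) : cell (tape w) 0 = some TapeSym.lend := by
  simp [cell, tape]

theorem cell_tape_letter (w : List (Letter n)) (p : ℕ) (hp : p < w.length) :
    cell (tape w) (1 + (p : ℤ)) = some (TapeSym.letter w[p]) := by
  have e : (1 + (p : ℤ)) = ((p + 1 : ℕ) : ℤ) := by push_cast; ring
  rw [e, cell_nat]
  simp [tape, List.getElem?_append_left, hp]

theorem cell_tape_end (w : List (Letter n)) :
    cell (tape w) (1 + (w.length : ℤ)) = some TapeSym.rend := by
  have e : (1 + (w.length : ℤ)) = ((w.length + 1 : ℕ) : ℤ) := by push_cast; ring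
  rw [e, cell_nat]
  simp [tape]

/-- The reachable configurations of the automaton. -/
def lvInv (w : List (Letter n)) (c : (Fin n ⊕ Bool) × ℤ) : Prop :=
  c = (Sum.inr false, 0) ∨
    (∃ (v : Fin n) (p : ℕ), p ≤ w.length ∧ c = (Sum.inl v, 1 + (p : ℤ)) ∧
      ∃ i, Conn (w.take p) i v) ∨
    (c.1 = Sum.inr true ∧ Live w)

theorem lvInv_step {w : List (Letter n)} {c c' : (Fin n ⊕ Bool) × ℤ} (h : lvInv w c)
    (hs : (lvA n).Step w c c') : lvInv w c' := by
  obtain ⟨s, m, hc, hd, hp⟩ := hs
  simp only [lvA] at hd
  rcases h with rfl | ⟨v, p, hp', rfl, i, hi⟩ | ⟨h1, h2⟩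
  · simp only at hc
    rw [cell_tape_zero] at hc
    simp only [Option.some.injEq] at hc
    subst hc
    simp only [lvTrans, Set.mem_ofPred_eq, Prod.mk.injEq] at hd
    obtain ⟨v, h1, rfl⟩ := hd
    right; left
    refine ⟨v, 0, by simp, ?_, v, ?_⟩
    · ext
      · simp [h1]
      · simp [hp, Move.val]
    · simp [Conn]
  · simp only at hc
    rcases Nat.lt_or_ge p w.length with hlt | hge
    · rw [cell_tape_letter w p hlt] at hc
      simp only [Option.some.injEq] at hc
      subst hc
      simp only [lvTrans, Set.mem_ofPred_eq, Prod.mk.injEq] at hd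
      obtain ⟨v', h3, h4, rfl⟩ := hd
      right; left
      refine ⟨v', p + 1, by omega, ?_, i, ?_⟩
      · ext
        · simp [h4]
        · simp [hp, Move.val]; ring
      · rw [List.take_add_one, List.getElem?_eq_getElem hlt]
        simp only [Option.toList_some]
        rw [conn_append]
        exact ⟨v, hi, v', h3, rfl⟩
    · have hpe : p = w.length := by omega
      subst hpe
      rw [cell_tape_end] at hc
      simp only [Option.some.injEq] at hc
      subst hc
      simp only [lvTrans, Set.mem_singleton_iff, Prod.mk.injEq] at hd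
      obtain ⟨h3, _⟩ := hd
      right; right
      refine ⟨h3, i, v, ?_⟩
      simpa using hi
  · rw [h1] at hd
    cases s <;> simp [lvTrans] at hd

theorem lvA_sound {w : List (Letter n)} (h : (lvA n).Accepts w) : Live w := by
  obtain ⟨c, hr, ha⟩ := h
  have hinv : ∀ c', Relation.ReflTransGen ((lvA n).Step w) ((lvA n).start, 0) c' → lvInv w c' := by
    intro c' hr'
    induction hr' with
    | refl => left; rfl
    | tail _ hs ih => exact lvInv_step ih hs
  replace hinv := hinv c hr
  rcases hinv with rfl | ⟨v, p, _, rfl, _⟩ | ⟨_, h2⟩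
  · simp [lvA, lvAcc] at ha
  · simp [lvA, lvAcc] at ha
  · exact h2

theorem lvA_path (w : List (Letter n)) (j : Fin n) (x : List (Letter n)) :
    ∀ (p : ℕ) (v : Fin n), p ≤ w.length → w.drop p = x → Conn x v j →
      Relation.ReflTransGen ((lvA n).Step w) (Sum.inl v, 1 + (p : ℤ)) (Sum.inl j, 1 + (w.length : ℤ)) := by
  induction x with
  | nil =>
    intro p v hp hd hc
    have h1 : w.length ≤ p := by
      have := congrArg List.length hd
      simp at this
      omega
    have h2 : p = w.length := by omega
    subst h2
    have h3 : v = j := hc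
    subst h3
    exact Relation.ReflTransGen.refl
  | cons g l ih =>
    intro p v hp hd hc
    obtain ⟨m, h1, h2⟩ := hc
    have hlt : p < w.length := by
      by_contra hge
      have : w.drop p = [] := List.drop_eq_nil_of_le (by omega)
      rw [this] at hd
      simp at hd
    have hg : w[p] = g := by
      rw [List.drop_eq_getElem_cons hlt] at hd
      simp only [List.cons.injEq] at hd
      exact hd.1
    have hd' : w.drop (p + 1) = l := by
      rw [List.drop_eq_getElem_cons hlt] at hd
      simp only [List.cons.injEq] at hd
      exact hd.2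
    refine Relation.ReflTransGen.head ?_ (ih (p + 1) m (by omega) hd' h2)
    refine ⟨TapeSym.letter g, Move.right, ?_, ?_, ?_⟩
    · rw [← hg]
      exact cell_tape_letter w p hlt
    · simp only [lvA, lvTrans, Set.mem_ofPred_eq, Prod.mk.injEq]
      exact ⟨m, h1, by simp⟩
    · simp only [Move.val]
      push_cast
      ring

theorem lvA_complete {w : List (Letter n)} (h : Live w) : (lvA n).Accepts w := by
  obtain ⟨i, j, hc⟩ := h
  refine ⟨(Sum.inr true, 1 + (w.length : ℤ)), ?_, rfl⟩
  have h0 : (lvA n).Step w ((lvA n).start, 0) (Sum.inl i, 1 + ((0 : ℕ) : ℤ)) := by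
    refine ⟨TapeSym.lend, Move.right, ?_, ?_, ?_⟩
    · exact cell_tape_zero w
    · simp only [lvA, lvTrans, Set.mem_ofPred_eq, Prod.mk.injEq]
      exact ⟨i, by simp⟩
    · simp [Move.val]
  have h1 := lvA_path w j w 0 i (by simp) (by simp) hc
  have h2 : (lvA n).Step w (Sum.inl j, 1 + (w.length : ℤ)) (Sum.inr true, 1 + (w.length : ℤ)) := by
    refine ⟨TapeSym.rend, Move.stay, ?_, ?_, ?_⟩
    · exact cell_tape_end w
    · simp [lvA, lvTrans]
    · simp [Move.val]
  exact (Relation.ReflTransGen.head h0 h1).tail h2

theorem lvA_accepts (w : List (Letter n)) : (lvA n).Accepts w ↔ Live w :=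
  ⟨lvA_sound, lvA_complete⟩

end Vale.Agent.Lib.P343
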