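import Vale.Agent.Lib.P343.Zig

namespace Vale.Agent.Lib.P343

variable {Q S : Type} {acc : Q → Bool} {δ : Q → S → Option (Q × Move)}

/-- The opposite head move. -/
def Move.flip : Move → Move
  | .left => .right
  | .stay => .stay
  | .right => .left

theorem Move.val_flip (m : Move) : m.flip.val = - m.val := by
  cases m <;> simp [Move.flip, Move.val]

/-- The mirror image of a transition function. -/
def revδ (δ : Q → S → Option (Q × Move)) : Q → S → Option (Q × Move) :=
  fun q s => (δ q s).map (fun r => (r.1, r.2.flip))

/-- The mirror image of a configuration. -/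
def mir (x : List S) (c : Q × ℤ) : Q × ℤ := (c.1, (x.length : ℤ) - 1 - c.2)

theorem cell_reverse (x : List S) (i : ℤ) : cell x.reverse ((x.length : ℤ) - 1 - i) = cell x i := by
  by_cases hi : 0 ≤ i ∧ i < x.length
  · obtain ⟨k, rfl⟩ : ∃ k : ℕ, i = k := ⟨i.toNat, by omega⟩
    have e : (x.length : ℤ) - 1 - (k : ℤ) = ((x.length - 1 - k : ℕ) : ℤ) := by
      omega
    rw [e, cell_nat, cell_nat]
    have hk : x.length - 1 - k < x.length := by omega
    rw [List.getElem?_reverse hk]
    congr 1
    omega
  · rw [cell_none_of_outside hi, cell_none_of_outside]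
    simp only [List.length_reverse]
    omega

theorem step_rev (x : List S) (c : Q × ℤ) :
    step acc (revδ δ) x.reverse (mir x c) = (step acc δ x c).map (mir x) := by
  unfold step mir
  simp only
  by_cases h : acc c.1 = true
  · rw [if_pos h, if_pos h]; rfl
  · rw [if_neg h, if_neg h]
    rw [cell_reverse]
    cases hc : cell x c.2 with
    | none => rfl
    | some s =>
      simp only [revδ]
      cases hd : δ c.1 s with
      | none => rfl
      | some r =>
        simp only [Option.map_some]
        congr 2
        rw [Move.val_flip]
        ring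

theorem run_rev (x : List S) (c : Q × ℤ) (n : ℕ) :
    run acc (revδ δ) x.reverse (mir x c) n = (run acc δ x c n).map (mir x) := by
  induction n with
  | zero => rfl
  | succ n ih =>
    rw [run_succ, run_succ, ih]
    cases run acc δ x c n with
    | none => rfl
    | some c' =>
      simp only [Option.map_some, Option.bind_some]
      exact step_rev x c'

theorem mir_mir (x : List S) (c : Q × ℤ) : mir x (mir x c) = c := by
  unfold mir
  ext <;> simp

/-- Forward direction: a configuration of the computation, in the mirror computation. -/
theorem run_rev_of {x : List S} {c : Q × ℤ} {n : ℕ} {q : Q} {i : ℤ}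
    (h : run acc δ x c n = some (q, i)) :
    run acc (revδ δ) x.reverse (mir x c) n = some (q, (x.length : ℤ) - 1 - i) := by
  rw [run_rev, h]; rfl

/-- Backward direction: a configuration of the mirror computation, in the computation. -/
theorem run_of_rev {x : List S} {c : Q × ℤ} {n : ℕ} {q : Q} {i : ℤ}
    (h : run acc (revδ δ) x.reverse (mir x c) n = some (q, i)) :
    run acc δ x c n = some (q, (x.length : ℤ) - 1 - i) := by
  rw [run_rev] at h
  cases hr : run acc δ x c n with
  | none => simp [hr] at h
  | some c' =>
    rw [hr] at h
    simp only [Option.map_some, Option.some.injEq] at h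
    have h2 := mir_mir x c'
    rw [h] at h2
    rw [← h2]
    rfl

/-- The bound on crossings is invariant under reversal. -/
theorem CB_rev {x : List S} {s0 : Q × ℤ} {k : ℕ} (h : CB acc δ x s0 k) :
    CB acc (revδ δ) x.reverse (mir x s0) k := by
  intro b t₁ t₂ hin s hs
  refine h ((x.length : ℤ) - 2 - b) t₁ t₂ ?_ s ?_
  · intro t h1 h2
    obtain ⟨q, i, h3, h4, h5⟩ := hin t h1 h2
    simp only [List.length_reverse] at h5
    exact ⟨q, _, run_of_rev h3, by omega, by omega⟩
  · intro t ht
    obtain ⟨h1, h2, q, q', i, i', h3, h4, h5⟩ := hs t ht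
    refine ⟨h1, h2, q, q', _, _, run_of_rev h3, run_of_rev h4, ?_⟩
    omega

end Vale.Agent.Lib.P343
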