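import Vale.Agent.Lib.P343.Defs

namespace Vale.Agent.Lib.P343

variable {Q S : Type} (acc : Q → Bool) (δ : Q → S → Option (Q × Move))

theorem Move.val_bound (m : Move) : -1 ≤ m.val ∧ m.val ≤ 1 := by
  cases m <;> simp [Move.val]

theorem cell_nat (x : List S) (i : ℕ) : cell x (i : ℤ) = x[i]? := by
  simp [cell]

theorem cell_some_range {x : List S} {i : ℤ} {s : S} (h : cell x i = some s) :
    0 ≤ i ∧ i < x.length := by
  unfold cell at h
  split_ifs at h with h0
  have : i.toNat < x.length := by
    by_contra hc
    rw [List.getElem?_eq_none (by omega)] at h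
    exact absurd h (by simp)
  exact ⟨h0, by omega⟩

theorem cell_none_of_outside {x : List S} {i : ℤ} (h : ¬ (0 ≤ i ∧ i < x.length)) :
    cell x i = none := by
  cases hc : cell x i with
  | none => rfl
  | some s => exact absurd (cell_some_range hc) h

theorem cell_some_of_inside {x : List S} {i : ℤ} (h : 0 ≤ i ∧ i < x.length) :
    ∃ s, cell x i = some s := by
  unfold cell
  rw [if_pos h.1]
  have : i.toNat < x.length := by omega
  exact ⟨x[i.toNat], List.getElem?_eq_getElem this⟩

@[simp] theorem run_zero (x : List S) (c : Q × ℤ) : run acc δ x c 0 = some c := rfl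

theorem run_succ (x : List S) (c : Q × ℤ) (n : ℕ) :
    run acc δ x c (n + 1) = (run acc δ x c n).bind (step acc δ x) := rfl

theorem run_succ' (x : List S) (c : Q × ℤ) (n : ℕ) :
    run acc δ x c (n + 1) = (step acc δ x c).bind (fun c' => run acc δ x c' n) := by
  induction n with
  | zero => simp [run_succ]
  | succ n ih =>
    rw [run_succ, ih]
    cases h : step acc δ x c with
    | none => simp
    | some c' => simp [run_succ]

theorem run_add (x : List S) (c : Q × ℤ) (m n : ℕ) :
    run acc δ x c (m + n) = (run acc δ x c m).bind (fun c' => run acc δ x c' n) := by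
  induction n with
  | zero => cases run acc δ x c m <;> simp
  | succ n ih =>
    rw [← Nat.add_assoc, run_succ, ih]
    cases h : run acc δ x c m with
    | none => simp
    | some c' => simp [run_succ]

theorem run_add_of {x : List S} {c c' : Q × ℤ} {m : ℕ} (h : run acc δ x c m = some c') (n : ℕ) :
    run acc δ x c (m + n) = run acc δ x c' n := by
  rw [run_add, h]; simp

theorem step_some_inside {x : List S} {c c' : Q × ℤ} (h : step acc δ x c = some c') :
    0 ≤ c.2 ∧ c.2 < x.length := by
  unfold step at h
  split_ifs at h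
  split at h
  · exact absurd h (by simp)
  · rename_i s hs
    exact cell_some_range hs

theorem step_some_acc {x : List S} {c c' : Q × ℤ} (h : step acc δ x c = some c') :
    acc c.1 = false := by
  unfold step at h
  split_ifs at h with h0
  simpa using h0

theorem step_some_move {x : List S} {c c' : Q × ℤ} (h : step acc δ x c = some c') :
    c.2 - 1 ≤ c'.2 ∧ c'.2 ≤ c.2 + 1 := by
  unfold step at h
  split_ifs at h
  split at h
  · exact absurd h (by simp)
  · rw [Option.map_eq_some_iff] at h
    obtain ⟨r, _, rfl⟩ := h
    have := Move.val_bound r.2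
    constructor <;> simp <;> omega

/-- A computation stops once it is outside the tape. -/
theorem step_outside {x : List S} {c : Q × ℤ} (h : ¬ (0 ≤ c.2 ∧ c.2 < x.length)) :
    step acc δ x c = none := by
  cases hs : step acc δ x c with
  | none => rfl
  | some c' => exact absurd (step_some_inside acc δ hs) h

theorem run_stop_of_none {x : List S} {c : Q × ℤ} {n : ℕ} (h : run acc δ x c n = none) (m : ℕ) :
    run acc δ x c (n + m) = none := by
  rw [run_add, h]; rfl

theorem run_ne_none_of_le {x : List S} {c c' : Q × ℤ} {n m : ℕ} (hm : m ≤ n)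
    (h : run acc δ x c n = some c') : ∃ c'', run acc δ x c m = some c'' := by
  cases hr : run acc δ x c m with
  | none =>
    have := run_stop_of_none acc δ hr (n - m)
    rw [Nat.add_sub_cancel' hm, h] at this
    exact absurd this (by simp)
  | some c'' => exact ⟨c'', rfl⟩

/-- The positions reached from inside a tape stay within one cell of the tape. -/
theorem run_bounds {x : List S} {c : Q × ℤ} (hc : 0 ≤ c.2 ∧ c.2 < x.length) (n : ℕ) (c' : Q × ℤ)
    (h : run acc δ x c n = some c') : -1 ≤ c'.2 ∧ c'.2 ≤ x.length := by
  induction n generalizing c' with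
  | zero =>
    simp at h; subst h; omega
  | succ n ih =>
    rw [run_succ] at h
    cases hr : run acc δ x c n with
    | none => simp [hr] at h
    | some c1 =>
      simp [hr] at h
      have h1 := step_some_inside acc δ h
      have h2 := step_some_move acc δ h
      omega

/-- A configuration outside the tape is the last one of its computation. -/
theorem run_outside_last {x : List S} {c c' : Q × ℤ} {n : ℕ} (h : run acc δ x c n = some c')
    (ho : ¬ (0 ≤ c'.2 ∧ c'.2 < x.length)) {m : ℕ} {c'' : Q × ℤ}
    (h' : run acc δ x c m = some c'') : m ≤ n := by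
  by_contra hc
  have hm : n + 1 ≤ m := by omega
  obtain ⟨c3, h3⟩ := run_ne_none_of_le acc δ hm h'
  rw [run_succ, h] at h3
  simp [step_outside acc δ ho] at h3

theorem run_outside_unique {x : List S} {c c1 c2 : Q × ℤ} {n m : ℕ}
    (h1 : run acc δ x c n = some c1) (h2 : run acc δ x c m = some c2)
    (o1 : ¬ (0 ≤ c1.2 ∧ c1.2 < x.length)) (o2 : ¬ (0 ≤ c2.2 ∧ c2.2 < x.length)) :
    n = m ∧ c1 = c2 := by
  have a := run_outside_last acc δ h1 o1 h2
  have b := run_outside_last acc δ h2 o2 h1
  have : n = m := by omega
  subst this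
  rw [h1] at h2
  exact ⟨rfl, by simpa using h2⟩

/-- The computation exits the tape on the right, in state `q`. -/
def ExitsR (x : List S) (c : Q × ℤ) (q : Q) : Prop :=
  ∃ n, run acc δ x c n = some (q, (x.length : ℤ))

/-- The computation exits the tape on the left, in state `q`. -/
def ExitsL (x : List S) (c : Q × ℤ) (q : Q) : Prop :=
  ∃ n, run acc δ x c n = some (q, -1)

open Classical in
/-- The outcome of a computation on a tape: exit on the right (`true`) or on the left
(`false`) in a state, or no exit. -/
noncomputable def out (x : List S) (c : Q × ℤ) : Option (Bool × Q) :=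
  if h : ∃ q, ExitsR acc δ x c q then some (true, h.choose)
  else if h' : ∃ q, ExitsL acc δ x c q then some (false, h'.choose)
  else none

variable {acc δ}

theorem exitsR_unique {x : List S} {c : Q × ℤ} {q q' : Q} (h : ExitsR acc δ x c q)
    (h' : ExitsR acc δ x c q') : q = q' := by
  obtain ⟨n, hn⟩ := h
  obtain ⟨m, hm⟩ := h'
  have := (run_outside_unique acc δ hn hm (by simp) (by simp)).2
  simpa using this

theorem exitsL_unique {x : List S} {c : Q × ℤ} {q q' : Q} (h : ExitsL acc δ x c q)
    (h' : ExitsL acc δ x c q') : q = q' := by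
  obtain ⟨n, hn⟩ := h
  obtain ⟨m, hm⟩ := h'
  have := (run_outside_unique acc δ hn hm (by simp) (by simp)).2
  simpa using this

theorem exits_not_both {x : List S} {c : Q × ℤ} {q q' : Q} (h : ExitsR acc δ x c q)
    (h' : ExitsL acc δ x c q') : False := by
  obtain ⟨n, hn⟩ := h
  obtain ⟨m, hm⟩ := h'
  have := (run_outside_unique acc δ hn hm (by simp) (by simp)).2
  have h2 := congrArg Prod.snd this
  simp only at h2
  omega

theorem out_eq_right {x : List S} {c : Q × ℤ} {q : Q} (h : ExitsR acc δ x c q) :
    out acc δ x c = some (true, q) := by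
  unfold out
  have he : ∃ q, ExitsR acc δ x c q := ⟨q, h⟩
  rw [dif_pos he, exitsR_unique he.choose_spec h]

theorem out_eq_left {x : List S} {c : Q × ℤ} {q : Q} (h : ExitsL acc δ x c q) :
    out acc δ x c = some (false, q) := by
  unfold out
  have hn : ¬ ∃ q, ExitsR acc δ x c q := fun ⟨q', hq'⟩ => exits_not_both hq' h
  have he : ∃ q, ExitsL acc δ x c q := ⟨q, h⟩
  rw [dif_neg hn, dif_pos he, exitsL_unique he.choose_spec h]

theorem exits_of_out_right {x : List S} {c : Q × ℤ} {q : Q}
    (h : out acc δ x c = some (true, q)) : ExitsR acc δ x c q := by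
  unfold out at h
  split_ifs at h with h1 h2
  · simp at h
    subst h
    exact h1.choose_spec
  · simp at h

theorem exits_of_out_left {x : List S} {c : Q × ℤ} {q : Q}
    (h : out acc δ x c = some (false, q)) : ExitsL acc δ x c q := by
  unfold out at h
  split_ifs at h with h1 h2
  · simp at h
  · simp at h
    subst h
    exact h2.choose_spec

theorem out_none_iff {x : List S} {c : Q × ℤ} :
    out acc δ x c = none ↔ (∀ q, ¬ ExitsR acc δ x c q) ∧ (∀ q, ¬ ExitsL acc δ x c q) := by
  unfold out
  constructor
  · intro h
    split_ifs at h with h1 h2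
    exact ⟨fun q hq => h1 ⟨q, hq⟩, fun q hq => h2 ⟨q, hq⟩⟩
  · rintro ⟨h1, h2⟩
    rw [dif_neg (by rintro ⟨q, hq⟩; exact h1 q hq), dif_neg (by rintro ⟨q, hq⟩; exact h2 q hq)]

/-- Outcomes do not change along a computation. -/
theorem out_of_reach {x : List S} {c c' : Q × ℤ} {n : ℕ} (h : run acc δ x c n = some c') :
    out acc δ x c = out acc δ x c' := by
  have key : ∀ (m : ℕ) (e : Q × ℤ), run acc δ x c m = some e →
      ¬ (0 ≤ e.2 ∧ e.2 < x.length) → ∃ m', run acc δ x c' m' = some e := by
    intro m e hm ho
    have hle := run_outside_last acc δ hm ho h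
    refine ⟨m - n, ?_⟩
    rw [← run_add_of acc δ h (m - n), Nat.add_sub_cancel' hle]
    exact hm
  cases ho : out acc δ x c' with
  | none =>
    rw [out_none_iff] at ho ⊢
    constructor
    · rintro q ⟨m, hm⟩
      obtain ⟨m', hm'⟩ := key m _ hm (by simp)
      exact ho.1 q ⟨m', hm'⟩
    · rintro q ⟨m, hm⟩
      obtain ⟨m', hm'⟩ := key m _ hm (by simp)
      exact ho.2 q ⟨m', hm'⟩
  | some r =>
    obtain ⟨b, q⟩ := r
    cases b with
    | true =>
      obtain ⟨m, hm⟩ := exits_of_out_right ho
      exact out_eq_right ⟨n + m, by rw [run_add_of acc δ h]; exact hm⟩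
    | false =>
      obtain ⟨m, hm⟩ := exits_of_out_left ho
      exact out_eq_left ⟨n + m, by rw [run_add_of acc δ h]; exact hm⟩

/-- `x` occurs in `y` at offset `a`. -/
def Occ (x y : List S) (a : ℤ) : Prop :=
  ∀ i : ℤ, 0 ≤ i → i < x.length → cell y (a + i) = cell x i

theorem occ_append (A x B : List S) : Occ x (A ++ x ++ B) A.length := by
  intro i h0 h1
  obtain ⟨k, rfl⟩ : ∃ k : ℕ, i = k := ⟨i.toNat, by omega⟩
  have e : ((A.length : ℤ) + (k : ℤ)) = ((A.length + k : ℕ) : ℤ) := by push_cast; ring
  rw [e, cell_nat, cell_nat]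
  have hk : k < x.length := by omega
  rw [List.append_assoc, List.getElem?_append_right (by omega)]
  rw [show A.length + k - A.length = k by omega]
  rw [List.getElem?_append_left hk]

theorem occ_left (x B : List S) : Occ x (x ++ B) 0 := by
  have := occ_append [] x B
  simpa using this

theorem occ_right (A x : List S) : Occ x (A ++ x) A.length := by
  have := occ_append A x []
  simpa using this

theorem occ_trans {x y z : List S} {a b : ℤ} (h1 : Occ x y a) (h2 : Occ y z b) (ha : 0 ≤ a)
    (hb : a + x.length ≤ y.length) : Occ x z (b + a) := by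
  intro i h0 hi
  rw [add_assoc, h2 (a + i) (by omega) (by omega), h1 i h0 hi]

theorem step_occ {x y : List S} {a : ℤ} (hO : Occ x y a) {c c' : Q × ℤ}
    (h : step acc δ x c = some c') :
    step acc δ y (c.1, a + c.2) = some (c'.1, a + c'.2) := by
  have hin := step_some_inside acc δ h
  unfold step at h ⊢
  split_ifs at h with h0
  rw [if_neg h0]
  simp only
  rw [hO _ hin.1 hin.2]
  split at h
  · exact absurd h (by simp)
  · rename_i s hs
    rw [Option.map_eq_some_iff] at h ⊢
    obtain ⟨r, hr, rfl⟩ := h
    refine ⟨r, hr, ?_⟩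
    simp [add_assoc]

/-- Computations inside a factor are computations on the whole tape. -/
theorem run_embed {x y : List S} {a : ℤ} (hO : Occ x y a) {c c' : Q × ℤ} {n : ℕ}
    (h : run acc δ x c n = some c') :
    run acc δ y (c.1, a + c.2) n = some (c'.1, a + c'.2) := by
  induction n generalizing c' with
  | zero => simp at h; subst h; rfl
  | succ n ih =>
    rw [run_succ] at h ⊢
    cases hr : run acc δ x c n with
    | none => simp [hr] at h
    | some c1 =>
      simp [hr] at h
      rw [ih hr]
      simpa using step_occ hO h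

theorem step_occ_back {x y : List S} {a : ℤ} (hO : Occ x y a) {c c' : Q × ℤ}
    (hin : 0 ≤ c.2 ∧ c.2 < x.length)
    (h : step acc δ y (c.1, a + c.2) = some c') :
    step acc δ x c = some (c'.1, c'.2 - a) := by
  unfold step at h ⊢
  split_ifs at h with h0
  rw [if_neg h0]
  simp only at h ⊢
  rw [hO _ hin.1 hin.2] at h
  split at h
  · exact absurd h (by simp)
  · rename_i s hs
    rw [Option.map_eq_some_iff] at h ⊢
    obtain ⟨r, hr, rfl⟩ := h
    refine ⟨r, hr, ?_⟩
    simp
    ring

/-- A computation on the whole tape follows the computation on a factor until that one leaves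
the factor. -/
theorem run_back {x y : List S} {a : ℤ} (hO : Occ x y a) {c : Q × ℤ}
    (n : ℕ) (c' : Q × ℤ) (h : run acc δ y (c.1, a + c.2) n = some c') :
    run acc δ x c n = some (c'.1, c'.2 - a) ∨
      ∃ m, m < n ∧ ∃ e, run acc δ x c m = some e ∧ ¬ (0 ≤ e.2 ∧ e.2 < x.length) := by
  induction n generalizing c' with
  | zero =>
    simp at h
    left
    rw [← h]
    simp
  | succ n ih =>
    rw [run_succ] at h
    cases hr : run acc δ y (c.1, a + c.2) n with
    | none => simp [hr] at h
    | some c1 =>
      simp [hr] at h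
      rcases ih c1 hr with h1 | ⟨m, hm, e, he, ho⟩
      · by_cases hin : 0 ≤ c1.2 - a ∧ c1.2 - a < x.length
        · left
          rw [run_succ, h1]
          simp only [Option.bind_some]
          have := step_occ_back (acc := acc) (δ := δ) (c := (c1.1, c1.2 - a)) (c' := c') hO hin
          apply this
          simpa using h
        · right
          exact ⟨n, by omega, _, h1, hin⟩
      · right
        exact ⟨m, by omega, e, he, ho⟩

/-- When the computation on a factor has no exit, the computation on the whole tape never leaves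
the factor. -/
theorem stays_of_none {x y : List S} {a : ℤ} (hO : Occ x y a) {c : Q × ℤ}
    (hc : 0 ≤ c.2 ∧ c.2 < x.length) (hn : out acc δ x c = none)
    (n : ℕ) (c' : Q × ℤ) (h : run acc δ y (c.1, a + c.2) n = some c') :
    0 ≤ c'.2 - a ∧ c'.2 - a < x.length := by
  rw [out_none_iff] at hn
  have noexit : ∀ m e, run acc δ x c m = some e → 0 ≤ e.2 ∧ e.2 < x.length := by
    intro m e he
    by_contra ho
    have hb := run_bounds acc δ hc m e he
    have : e.2 = -1 ∨ e.2 = x.length := by omega
    rcases this with h1 | h1
    · exact hn.2 e.1 ⟨m, by rw [he]; congr 1; ext <;> simp [h1]⟩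
    · exact hn.1 e.1 ⟨m, by rw [he]; congr 1; ext <;> simp [h1]⟩
  rcases run_back hO n c' h with h1 | ⟨m, _, e, he, ho⟩
  · exact noexit n _ h1
  · exact absurd (noexit m e he) ho

/-- When the computation on a factor exits it, the whole computation gets there. -/
theorem embed_exitR {x y : List S} {a : ℤ} (hO : Occ x y a) {c : Q × ℤ} {q : Q}
    (h : ExitsR acc δ x c q) : ∃ n, run acc δ y (c.1, a + c.2) n = some (q, a + x.length) := by
  obtain ⟨n, hn⟩ := h
  exact ⟨n, run_embed hO hn⟩

theorem embed_exitL {x y : List S} {a : ℤ} (hO : Occ x y a) {c : Q × ℤ} {q : Q}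
    (h : ExitsL acc δ x c q) : ∃ n, run acc δ y (c.1, a + c.2) n = some (q, a - 1) := by
  obtain ⟨n, hn⟩ := h
  refine ⟨n, ?_⟩
  have := run_embed hO hn
  simpa [sub_eq_add_neg] using this

end Vale.Agent.Lib.P343
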