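import Vale.Agent.Lib.P343.Chain

namespace Vale.Agent.Lib.P343

variable {Q S : Type} {acc : Q → Bool} {δ : Q → S → Option (Q × Move)}

theorem step_cases {x : List S} {q : Q} {i : ℤ} {s : S} {c1 : Q × ℤ} (hc : cell x i = some s)
    (h : step acc δ x (q, i) = some c1) : ∃ p m, δ q s = some (p, m) ∧ c1 = (p, i + m.val) := by
  unfold step at h
  split_ifs at h with h0
  simp only at h
  rw [hc] at h
  simp only [Option.map_eq_some_iff] at h
  obtain ⟨⟨p, m⟩, hr, rfl⟩ := h
  exact ⟨p, m, hr, rfl⟩

theorem step_of {x : List S} {q p : Q} {i : ℤ} {s : S} {m : Move} (hq : ¬ acc q = true)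
    (hc : cell x i = some s) (h : δ q s = some (p, m)) :
    step acc δ x (q, i) = some (p, i + m.val) := by
  unfold step
  rw [if_neg hq]
  simp only
  rw [hc]
  simp only
  rw [h]
  rfl

section Outer

variable {l r : S} {E W A B : List S} {s0 : Q × ℤ}

theorem cell_first (x : List S) : cell ([l] ++ x ++ [r]) 0 = some l := by
  simp [cell]

theorem cell_last (x : List S) : cell ([l] ++ x ++ [r]) ((x.length : ℤ) + 1) = some r := by
  have : ((x.length : ℤ) + 1) = ((x.length + 1 : ℕ) : ℤ) := by push_cast; ring
  rw [this, cell_nat]
  simp

theorem occ_mid (x : List S) : Occ x ([l] ++ x ++ [r]) 1 := by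
  have := occ_append [l] x [r]
  simpa only [List.length_singleton, Nat.cast_one] using this

/-- The outer simulation: a computation that accepts on the tape of `E` and moves between
the endmarkers is mirrored on the tape of `W` when the two chains hold. -/
theorem sim_core (hEne : E ≠ []) (hA : W = A ++ E) (hB : W = E ++ B)
    (hnl : ∀ q p m, δ q l = some (p, m) → m ≠ Move.left)
    (hnr : ∀ q p m, δ q r = some (p, m) → m ≠ Move.right)
    [Fintype Q]
    (hR : ∀ q ∈ TR acc δ E, ∀ t, run acc δ ([l] ++ W ++ [r]) s0 t = some (q, 1 + (E.length : ℤ)) →
      ∃ t', run acc δ ([l] ++ W ++ [r]) s0 t' = some (q, 1 + (W.length : ℤ)))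
    (hL : ∀ q ∈ TR acc (revδ δ) E.reverse, ∀ t,
      run acc δ ([l] ++ W ++ [r]) s0 t = some (q, (W.length : ℤ) - E.length) →
      ∃ t', run acc δ ([l] ++ W ++ [r]) s0 t' = some (q, 0))
    (t : ℕ) :
    ∀ (q : Q) (pE pW : ℤ),
      ((pE = 0 ∧ pW = 0) ∨ (pE = (E.length : ℤ) + 1 ∧ pW = (W.length : ℤ) + 1)) →
      (∃ τ, run acc δ ([l] ++ W ++ [r]) s0 τ = some (q, pW)) →
      ∀ e, run acc δ ([l] ++ E ++ [r]) (q, pE) t = some e → acc e.1 = true →
      ∃ τ e', run acc δ ([l] ++ W ++ [r]) s0 τ = some e' ∧ acc e'.1 = true := by
  have hElen : 0 < (E.length : ℤ) := by
    have := List.length_pos_iff.mpr hEne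
    omega
  have hOE : Occ E ([l] ++ E ++ [r]) 1 := occ_mid E
  have hOW1 : Occ E ([l] ++ W ++ [r]) 1 := by
    have := occ_append [l] E (B ++ [r])
    rw [hB]
    simpa only [List.length_singleton, Nat.cast_one, List.append_assoc] using this
  have hOW2 : Occ E ([l] ++ W ++ [r]) (1 + (W.length : ℤ) - E.length) := by
    have := occ_append ([l] ++ A) E [r]
    have e : (([l] ++ A).length : ℤ) = 1 + (W.length : ℤ) - E.length := by
      rw [hA]
      simp only [List.length_append, List.length_singleton]
      push_cast
      ring
    have hW : [l] ++ W ++ [r] = [l] ++ A ++ E ++ [r] := by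
      rw [hA]
      simp [List.append_assoc]
    rw [hW, ← e]
    exact this
  induction t using Nat.strong_induction_on with
  | _ t ih =>
    intro q pE pW hside ⟨τ, hτ⟩ e he hae
    by_cases ha : acc q = true
    · exact ⟨τ, (q, pW), hτ, ha⟩
    · cases t with
      | zero =>
        have := run_zero_eq he
        rw [this] at hae
        exact absurd hae ha
      | succ t' =>
        rw [run_succ'] at he
        cases hs : step acc δ ([l] ++ E ++ [r]) (q, pE) with
        | none =>
          rw [hs] at he
          simp at he
        | some c1 =>
          rw [hs] at he
          simp only [Option.bind_some] at he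
          rcases hside with ⟨rfl, rfl⟩ | ⟨rfl, rfl⟩
          · -- on the left endmarker
            obtain ⟨p, m, hd, rfl⟩ := step_cases (cell_first E) hs
            have hsW := step_of (acc := acc) (x := [l] ++ W ++ [r]) ha (cell_first W) hd
            have hτ' : run acc δ ([l] ++ W ++ [r]) s0 (τ + 1) = some (p, 0 + m.val) := by
              rw [run_succ, hτ]
              exact hsW
            cases m with
            | left => exact absurd rfl (hnl q p _ hd)
            | stay =>
              exact ih t' (by omega) p 0 0 (Or.inl ⟨rfl, rfl⟩) ⟨_, by simpa [Move.val] using hτ'⟩ e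
                (by simpa [Move.val] using he) hae
            | right =>
              have he0 : run acc δ ([l] ++ E ++ [r]) ((p, (0 : ℤ)).1, 1 + (p, (0 : ℤ)).2) t' =
                  some e := by
                simpa [Move.val] using he
              have hτ0 : run acc δ ([l] ++ W ++ [r]) s0 (τ + 1) =
                  some ((p, (0 : ℤ)).1, 1 + (p, (0 : ℤ)).2) := by
                simpa [Move.val] using hτ'
              rcases run_back hOE t' e he0 with h1 | ⟨m', hm', ex, hex, hoex⟩
              · -- accepted inside `E`
                have h2 := run_embed (acc := acc) (δ := δ) hOW1 h1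
                rw [← run_add_of acc δ hτ0] at h2
                exact ⟨_, _, h2, hae⟩
              · have hc0 : 0 ≤ (p, (0 : ℤ)).2 ∧ (p, (0 : ℤ)).2 < (E.length : ℤ) := by
                  simpa using hElen
                rcases outside_cases hc0 hex hoex with h3 | h3
                · -- left exit
                  rw [h3] at hex
                  have h4 := run_embed (acc := acc) (δ := δ) hOE hex
                  have h5 := run_embed (acc := acc) (δ := δ) hOW1 hex
                  rw [← run_add_of acc δ hτ0] at h5
                  have h6 := run_add_of acc δ h4 (t' - m')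
                  rw [Nat.add_sub_cancel' (le_of_lt hm'), he0] at h6
                  exact ih (t' - m') (by omega) ex.1 0 0 (Or.inl ⟨rfl, rfl⟩) ⟨_, by simpa using h5⟩ e
                    (by simpa using h6.symm) hae
                · -- right exit
                  rw [h3] at hex
                  have h4 := run_embed (acc := acc) (δ := δ) hOE hex
                  have h5 := run_embed (acc := acc) (δ := δ) hOW1 hex
                  rw [← run_add_of acc δ hτ0] at h5
                  have h6 := run_add_of acc δ h4 (t' - m')
                  rw [Nat.add_sub_cancel' (le_of_lt hm'), he0] at h6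
                  have hmem : ex.1 ∈ TR acc δ E := mem_TR.mpr ⟨p, m', hex⟩
                  obtain ⟨t2, ht2⟩ := hR _ hmem _ h5
                  refine ih (t' - m') (by omega) ex.1 ((E.length : ℤ) + 1) ((W.length : ℤ) + 1)
                    (Or.inr ⟨rfl, rfl⟩) ⟨t2, by rw [ht2, add_comm]⟩ e ?_ hae
                  rw [add_comm]
                  exact h6.symm
          · -- on the right endmarker
            obtain ⟨p, m, hd, rfl⟩ := step_cases (cell_last E) hs
            have hsW := step_of (acc := acc) (x := [l] ++ W ++ [r]) ha (cell_last W) hd
            have hτ' : run acc δ ([l] ++ W ++ [r]) s0 (τ + 1) =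
                some (p, (W.length : ℤ) + 1 + m.val) := by
              rw [run_succ, hτ]
              exact hsW
            cases m with
            | right => exact absurd rfl (hnr q p _ hd)
            | stay =>
              exact ih t' (by omega) p _ _ (Or.inr ⟨rfl, rfl⟩) ⟨_, by simpa [Move.val] using hτ'⟩ e
                (by simpa [Move.val] using he) hae
            | left =>
              have he0 : run acc δ ([l] ++ E ++ [r])
                  ((p, (E.length : ℤ) - 1).1, 1 + (p, (E.length : ℤ) - 1).2) t' = some e := by
                have e1 : (E.length : ℤ) + 1 + Move.left.val = 1 + ((E.length : ℤ) - 1) := by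
                  simp only [Move.val]; ring
                rw [e1] at he
                exact he
              have hτ0 : run acc δ ([l] ++ W ++ [r]) s0 (τ + 1) =
                  some ((p, (E.length : ℤ) - 1).1,
                    (1 + (W.length : ℤ) - E.length) + (p, (E.length : ℤ) - 1).2) := by
                have e1 : (W.length : ℤ) + 1 + Move.left.val =
                    (1 + (W.length : ℤ) - E.length) + ((E.length : ℤ) - 1) := by
                  simp only [Move.val]; ring
                rw [e1] at hτ'
                exact hτ'
              rcases run_back hOE t' e he0 with h1 | ⟨m', hm', ex, hex, hoex⟩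
              · -- accepted inside `E`
                have h2 := run_embed (acc := acc) (δ := δ) hOW2 h1
                rw [← run_add_of acc δ hτ0] at h2
                exact ⟨_, _, h2, hae⟩
              · have hc0 : 0 ≤ (p, (E.length : ℤ) - 1).2 ∧
                    (p, (E.length : ℤ) - 1).2 < (E.length : ℤ) := by
                  simp only
                  omega
                rcases outside_cases hc0 hex hoex with h3 | h3
                · -- left exit
                  rw [h3] at hex
                  have h4 := run_embed (acc := acc) (δ := δ) hOE hex
                  have h5 := run_embed (acc := acc) (δ := δ) hOW2 hex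
                  rw [← run_add_of acc δ hτ0] at h5
                  have h6 := run_add_of acc δ h4 (t' - m')
                  rw [Nat.add_sub_cancel' (le_of_lt hm'), he0] at h6
                  have hmem : ex.1 ∈ TR acc (revδ δ) E.reverse := by
                    refine mem_TR.mpr ⟨p, m', ?_⟩
                    have h7 := run_rev_of hex
                    simp only [mir, List.length_reverse] at h7 ⊢
                    have e1 : (E.length : ℤ) - 1 - ((E.length : ℤ) - 1) = 0 := by ring
                    have e2 : (E.length : ℤ) - 1 - (-1) = (E.length : ℤ) := by ring
                    rw [e1, e2] at h7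
                    exact h7
                  obtain ⟨t2, ht2⟩ := hL _ hmem (τ + 1 + m') (by
                    rw [h5]
                    congr 2
                    ring)
                  refine ih (t' - m') (by omega) ex.1 0 0 (Or.inl ⟨rfl, rfl⟩) ⟨t2, ht2⟩ e ?_ hae
                  have e1 : (1 : ℤ) + (-1) = 0 := by norm_num
                  rw [e1] at h6
                  exact h6.symm
                · -- right exit
                  rw [h3] at hex
                  have h4 := run_embed (acc := acc) (δ := δ) hOE hex
                  have h5 := run_embed (acc := acc) (δ := δ) hOW2 hex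
                  rw [← run_add_of acc δ hτ0] at h5
                  have h6 := run_add_of acc δ h4 (t' - m')
                  rw [Nat.add_sub_cancel' (le_of_lt hm'), he0] at h6
                  refine ih (t' - m') (by omega) ex.1 ((E.length : ℤ) + 1) ((W.length : ℤ) + 1)
                    (Or.inr ⟨rfl, rfl⟩) ⟨τ + 1 + m', ?_⟩ e ?_ hae
                  · rw [h5]
                    congr 2
                    ring
                  · rw [add_comm]
                    exact h6.symm

end Outer

end Vale.Agent.Lib.P343
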