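import Vale.Agent.Lib.P343.Concat

namespace Vale.Agent.Lib.P343

variable {Q S : Type} {acc : Q → Bool} {δ : Q → S → Option (Q × Move)}

/-- Outcomes of computations on a factor. -/
abbrev Res (Q : Type) := Option (Bool × Q)

/-- The part of a zigzag certificate that concerns the left factor: `o` is the first outcome in
the left factor, the list gives the states at the crossings of the boundary, and `r` is the final
outcome of the zigzag. -/
def partP (f : Q → Res Q) : Res Q → List Q → Res Q → Prop
  | o, [], r => o = r ∧ ∀ d, r ≠ some (true, d)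
  | o, [d], _ => o = some (true, d)
  | o, d :: d' :: l, r => o = some (true, d) ∧ partP f (f d') l r

/-- The part of a zigzag certificate that concerns the right factor. -/
def partQ (g : Q → Res Q) : List Q → Res Q → Prop
  | [], _ => True
  | [d], r => g d = r ∧ ∀ d', r ≠ some (false, d')
  | d :: d' :: l, r => g d = some (false, d') ∧ partQ g l r

section Concat

variable {P R : List S}

theorem out_left_none {d : Q} {i : ℤ} (hi : 0 ≤ i ∧ i < P.length)
    (h : out acc δ P (d, i) = none) : out acc δ (P ++ R) (d, i) = none := by
  have key : ∀ n c', run acc δ (P ++ R) (d, i) n = some c' → 0 ≤ c'.2 ∧ c'.2 < P.length := by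
    intro n c' hn
    have := stays_of_none (acc := acc) (δ := δ) (occ_left P R) (c := (d, i)) hi h n c'
      (by simpa using hn)
    simpa using this
  rw [out_none_iff]
  constructor
  · rintro q ⟨n, hn⟩
    have := key n _ hn
    simp at this
    omega
  · rintro q ⟨n, hn⟩
    have := key n _ hn
    simp at this

theorem out_left_false {d q : Q} {i : ℤ}
    (h : out acc δ P (d, i) = some (false, q)) : out acc δ (P ++ R) (d, i) = some (false, q) := by
  obtain ⟨n, hn⟩ := exits_of_out_left h
  have := run_embed (acc := acc) (δ := δ) (occ_left P R) hn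
  exact out_eq_left ⟨n, by simpa using this⟩

theorem out_left_true {d q : Q} {i : ℤ}
    (h : out acc δ P (d, i) = some (true, q)) :
    out acc δ (P ++ R) (d, i) = out acc δ (P ++ R) (q, (P.length : ℤ)) := by
  obtain ⟨n, hn⟩ := exits_of_out_right h
  have := run_embed (acc := acc) (δ := δ) (occ_left P R) hn
  exact out_of_reach (n := n) (by simpa using this)

theorem out_right_none {d : Q} {j : ℤ} (hj : 0 ≤ j ∧ j < R.length)
    (h : out acc δ R (d, j) = none) : out acc δ (P ++ R) (d, (P.length : ℤ) + j) = none := by
  have key : ∀ n c', run acc δ (P ++ R) (d, (P.length : ℤ) + j) n = some c' →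
      0 ≤ c'.2 - P.length ∧ c'.2 - P.length < R.length := by
    intro n c' hn
    exact stays_of_none (acc := acc) (δ := δ) (occ_right P R) (c := (d, j)) hj h n c' hn
  rw [out_none_iff]
  constructor
  · rintro q ⟨n, hn⟩
    have := key n _ hn
    simp at this
  · rintro q ⟨n, hn⟩
    have := key n _ hn
    simp at this
    omega

theorem out_right_true {d q : Q} {j : ℤ}
    (h : out acc δ R (d, j) = some (true, q)) :
    out acc δ (P ++ R) (d, (P.length : ℤ) + j) = some (true, q) := by
  obtain ⟨n, hn⟩ := exits_of_out_right h
  have := run_embed (acc := acc) (δ := δ) (occ_right P R) hn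
  exact out_eq_right ⟨n, by simpa using this⟩

theorem out_right_false {d q : Q} {j : ℤ}
    (h : out acc δ R (d, j) = some (false, q)) :
    out acc δ (P ++ R) (d, (P.length : ℤ) + j) = out acc δ (P ++ R) (q, (P.length : ℤ) - 1) := by
  obtain ⟨n, hn⟩ := exits_of_out_left h
  have := run_embed (acc := acc) (δ := δ) (occ_right P R) hn
  exact out_of_reach (n := n) (by simpa [sub_eq_add_neg] using this)

end Concat

/-- Soundness of zigzag certificates: the two parts, for any pair of factors, determine the
outcome on the concatenation. -/
theorem zig_sound {P R : List S} (hP : P ≠ []) (hR : R ≠ []) (N : ℕ) :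
    ∀ (l : List Q), l.length ≤ N → ∀ (d : Q) (i : ℤ) (r : Res Q), 0 ≤ i → i < P.length →
      partP (fun d => out acc δ P (d, (P.length : ℤ) - 1)) (out acc δ P (d, i)) l r →
      partQ (fun d => out acc δ R (d, 0)) l r →
      out acc δ (P ++ R) (d, i) = r := by
  have hPl : 0 < (P.length : ℤ) := by
    have := List.length_pos_iff.mpr hP
    omega
  have hRl : 0 < (R.length : ℤ) := by
    have := List.length_pos_iff.mpr hR
    omega
  induction N with
  | zero =>
    intro l hl d i r hi0 hi1 h1 _
    have hl' : l = [] := List.length_eq_zero_iff.mp (by omega)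
    subst hl'
    obtain ⟨h3, h4⟩ := h1
    rcases ho : out acc δ P (d, i) with _ | ⟨b, q⟩
    · rw [ho] at h3; subst h3
      exact out_left_none ⟨hi0, hi1⟩ ho
    · cases b with
      | true =>
        rw [ho] at h3
        exact absurd h3.symm (h4 q)
      | false =>
        rw [ho] at h3; subst h3
        exact out_left_false ho
  | succ N ih =>
    intro l hl d i r hi0 hi1 h1 h2
    match l, hl, h1, h2 with
    | [], hl, h1, h2 => exact ih [] (by simp) d i r hi0 hi1 h1 h2
    | [d1], hl, h1, h2 =>
      have h1' : out acc δ P (d, i) = some (true, d1) := h1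
      obtain ⟨h3, h4⟩ : out acc δ R (d1, 0) = r ∧ ∀ d', r ≠ some (false, d') := h2
      rw [out_left_true h1']
      have hz : ((P.length : ℤ)) = (P.length : ℤ) + 0 := by simp
      rw [hz]
      rcases hr : r with _ | ⟨b, q⟩
      · rw [hr] at h3
        exact out_right_none ⟨le_refl _, hRl⟩ h3
      · cases b with
        | true =>
          rw [hr] at h3
          exact out_right_true h3
        | false =>
          rw [hr] at h4
          exact absurd rfl (h4 q)
    | d1 :: d2 :: l', hl, h1, h2 =>
      obtain ⟨h3, h4⟩ : out acc δ P (d, i) = some (true, d1) ∧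
          partP (fun d => out acc δ P (d, (P.length : ℤ) - 1))
            (out acc δ P (d2, (P.length : ℤ) - 1)) l' r := h1
      obtain ⟨h5, h6⟩ : out acc δ R (d1, 0) = some (false, d2) ∧
          partQ (fun d => out acc δ R (d, 0)) l' r := h2
      rw [out_left_true h3]
      have hz : ((P.length : ℤ)) = (P.length : ℤ) + 0 := by simp
      rw [hz, out_right_false h5]
      simp only [List.length_cons] at hl
      exact ih l' (by omega) d2 _ r (by omega) (by omega) h4 h6

/-- The head crosses the boundary between cells `b` and `b + 1` at time `t`. -/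
def CrossAt (acc : Q → Bool) (δ : Q → S → Option (Q × Move)) (x : List S) (s0 : Q × ℤ) (b : ℤ)
    (t : ℕ) : Prop :=
  ∃ q q' i i', run acc δ x s0 t = some (q, i) ∧ run acc δ x s0 (t + 1) = some (q', i') ∧
    ((i = b ∧ i' = b + 1) ∨ (i = b + 1 ∧ i' = b))

/-- The bound on crossings of a boundary while the head stays off the first and the last cell of
the tape. -/
def CB (acc : Q → Bool) (δ : Q → S → Option (Q × Move)) (x : List S) (s0 : Q × ℤ) (k : ℕ) : Prop :=
  ∀ (b : ℤ) (t₁ t₂ : ℕ),
    (∀ t, t₁ ≤ t → t ≤ t₂ → ∃ q i, run acc δ x s0 t = some (q, i) ∧ 1 ≤ i ∧ i ≤ (x.length : ℤ) - 2) →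
    ∀ s : Finset ℕ, (∀ t ∈ s, t₁ ≤ t ∧ t < t₂ ∧ CrossAt acc δ x s0 b t) → s.card ≤ k

/-- A computation on a factor, followed on the whole tape. -/
theorem segment {x T : List S} {a : ℤ} (hO : Occ x T a) {s0 c e : Q × ℤ} {t n : ℕ}
    (hc : 0 ≤ c.2 ∧ c.2 < x.length) (ht : run acc δ T s0 t = some (c.1, a + c.2))
    (hn : run acc δ x c n = some e) (τ : ℕ) (h1 : t ≤ τ) (h2 : τ ≤ t + n) :
    ∃ e', run acc δ x c (τ - t) = some e' ∧ run acc δ T s0 τ = some (e'.1, a + e'.2) ∧
      -1 ≤ e'.2 ∧ e'.2 ≤ x.length := by
  obtain ⟨e', he'⟩ := run_ne_none_of_le acc δ (m := τ - t) (by omega) hn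
  refine ⟨e', he', ?_, ?_⟩
  · have h3 := run_embed (acc := acc) (δ := δ) hO he'
    have h4 := run_add_of acc δ ht (τ - t)
    rw [Nat.add_sub_cancel' h1] at h4
    rw [h4, h3]
  · have := run_bounds acc δ hc _ _ he'
    omega

section Complete

variable {T : List S} {s0 : Q × ℤ} {o : ℤ} {P R : List S} {k : ℕ}

/-- Completeness of zigzag certificates: a computation that crosses the boundary between the
two factors a bounded number of times has a certificate. -/
theorem zig_complete (hO : Occ (P ++ R) T o) (hP : P ≠ []) (hR : R ≠ [])
    (h1o : 1 ≤ o) (hlast : o + P.length + R.length ≤ (T.length : ℤ) - 1)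
    (hCB : CB acc δ T s0 k) (m : ℕ) :
    ∀ (j t₁ t : ℕ) (s : Finset ℕ) (d : Q) (i : ℤ), j + m = k → s.card = j → t₁ ≤ t →
      (∀ τ ∈ s, t₁ ≤ τ ∧ τ < t ∧ CrossAt acc δ T s0 (o + P.length - 1) τ) →
      (∀ τ, t₁ ≤ τ → τ ≤ t → ∃ q p, run acc δ T s0 τ = some (q, p) ∧ o ≤ p ∧
        p < o + P.length + R.length) →
      run acc δ T s0 t = some (d, o + i) → 0 ≤ i → i < P.length →
      ∃ (l : List Q) (r : Res Q), l.length ≤ m ∧
        partP (fun d => out acc δ P (d, (P.length : ℤ) - 1)) (out acc δ P (d, i)) l r ∧
        partQ (fun d => out acc δ R (d, 0)) l r := by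
  classical
  have hPl : 0 < (P.length : ℤ) := by
    have := List.length_pos_iff.mpr hP
    omega
  have hRl : 0 < (R.length : ℤ) := by
    have := List.length_pos_iff.mpr hR
    omega
  have hOP : Occ P T o := by
    intro i h0 h1
    rw [hO i h0 (by simp only [List.length_append]; push_cast; omega)]
    have := occ_left P R i h0 h1
    simpa using this
  have hOR : Occ R T (o + P.length) := by
    intro i h0 h1
    rw [add_assoc, hO (P.length + i) (by omega) (by simp only [List.length_append]; push_cast; omega)]
    exact occ_right P R i h0 h1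
  induction m using Nat.strong_induction_on with
  | _ m ih =>
    intro j t₁ t s d i hjm hcard ht₁ hs hrange ht hi0 hi1
    rcases ho : out acc δ P (d, i) with _ | ⟨b, d1⟩
    · exact ⟨[], none, by simp, ⟨rfl, by simp⟩, trivial⟩
    · cases b with
      | false =>
        exact ⟨[], some (false, d1), by simp, ⟨rfl, by simp⟩, trivial⟩
      | true =>
        obtain ⟨n1, hn1⟩ := exits_of_out_right ho
        obtain ⟨n1', q1, hn1', hprev1⟩ := exit_right_prev (c := (d, i)) ⟨hi0, hi1⟩ hn1
        subst hn1'
        -- the range of the first part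
        have hseg1 := segment hOP (c := (d, i)) ⟨hi0, hi1⟩ ht hn1
        have hrange1 : ∀ τ, t₁ ≤ τ → τ ≤ t + (n1' + 1) → ∃ q p, run acc δ T s0 τ = some (q, p) ∧
            o ≤ p ∧ p < o + P.length + R.length := by
          intro τ h1 h2
          by_cases htτ : τ ≤ t
          · exact hrange τ h1 htτ
          · obtain ⟨e', he1, he2, he3, he4⟩ := hseg1 τ (by omega) h2
            refine ⟨_, _, he2, ?_, ?_⟩
            · by_cases hlast' : τ - t = n1' + 1
              · rw [hlast', hn1] at he1
                have := Option.some.inj he1
                rw [← this]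
                simp only
                omega
              · have := run_inside_before hn1 he1 (by omega)
                omega
            · omega
        -- the first crossing
        have hτ1 : run acc δ T s0 (t + n1') = some (q1, o + ((P.length : ℤ) - 1)) := by
          rw [run_add_of acc δ ht]
          exact run_embed hOP hprev1
        have hτ1' : run acc δ T s0 (t + n1' + 1) = some (d1, o + (P.length : ℤ)) := by
          rw [add_assoc, run_add_of acc δ ht]
          exact run_embed hOP hn1
        have hcross1 : CrossAt acc δ T s0 (o + P.length - 1) (t + n1') :=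
          ⟨_, _, _, _, hτ1, hτ1', Or.inl ⟨by omega, by omega⟩⟩
        have hbound : ∀ t', (∀ τ, t₁ ≤ τ → τ ≤ t' → ∃ q p, run acc δ T s0 τ = some (q, p) ∧
            o ≤ p ∧ p < o + P.length + R.length) → ∀ s' : Finset ℕ,
            (∀ τ ∈ s', t₁ ≤ τ ∧ τ < t' ∧ CrossAt acc δ T s0 (o + P.length - 1) τ) →
            s'.card ≤ k := by
          intro t' hr s' hs'
          refine hCB (o + P.length - 1) t₁ t' ?_ s' hs'
          intro τ h1 h2
          obtain ⟨q, p, h3, h4, h5⟩ := hr τ h1 h2
          exact ⟨q, p, h3, by omega, by omega⟩
        have hs1 : ∀ τ ∈ insert (t + n1') s, t₁ ≤ τ ∧ τ < t + n1' + 1 ∧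
            CrossAt acc δ T s0 (o + P.length - 1) τ := by
          intro τ hτ
          rw [Finset.mem_insert] at hτ
          rcases hτ with rfl | hτ
          · exact ⟨by omega, by omega, hcross1⟩
          · obtain ⟨h1, h2, h3⟩ := hs τ hτ
            exact ⟨h1, by omega, h3⟩
        have hnot1 : t + n1' ∉ s := by
          intro hin
          have := (hs _ hin).2.1
          omega
        have hcard1 : (insert (t + n1') s).card = j + 1 := by
          rw [Finset.card_insert_of_notMem hnot1, hcard]
        have hb1 := hbound _ hrange1 _ hs1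
        rw [hcard1] at hb1
        have hm1 : 1 ≤ m := by omega
        rcases ho2 : out acc δ R (d1, 0) with _ | ⟨b2, d2⟩
        · refine ⟨[d1], none, by simpa using hm1, ?_, ?_⟩
          · exact rfl
          · exact ⟨ho2, by simp⟩
        · cases b2 with
          | true =>
            refine ⟨[d1], some (true, d2), by simpa using hm1, ?_, ?_⟩
            · exact rfl
            · exact ⟨ho2, by simp⟩
          | false =>
            obtain ⟨n2, hn2⟩ := exits_of_out_left ho2
            obtain ⟨n2', q2, hn2', hprev2⟩ := exit_left_prev (c := (d1, (0 : ℤ))) ⟨le_refl _, hRl⟩ hn2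
            subst hn2'
            have ht2 : run acc δ T s0 (t + n1' + 1) =
                some ((d1, (0 : ℤ)).1, (o + (P.length : ℤ)) + (d1, (0 : ℤ)).2) := by
              simpa using hτ1'
            have hseg2 := segment hOR (c := (d1, (0 : ℤ))) ⟨le_refl _, hRl⟩ ht2 hn2
            have hrange2 : ∀ τ, t₁ ≤ τ → τ ≤ t + n1' + 1 + (n2' + 1) → ∃ q p,
                run acc δ T s0 τ = some (q, p) ∧ o ≤ p ∧ p < o + P.length + R.length := by
              intro τ h1 h2
              by_cases htτ : τ ≤ t + n1' + 1
              · exact hrange1 τ h1 (by omega)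
              · obtain ⟨e', he1, he2, he3, he4⟩ := hseg2 τ (by omega) h2
                refine ⟨_, _, he2, ?_, ?_⟩
                · omega
                · by_cases hlast' : τ - (t + n1' + 1) = n2' + 1
                  · rw [hlast', hn2] at he1
                    have := Option.some.inj he1
                    rw [← this]
                    simp only
                    omega
                  · have := run_inside_before hn2 he1 (by omega)
                    omega
            have hτ2 : run acc δ T s0 (t + n1' + 1 + n2') = some (q2, o + (P.length : ℤ) + 0) := by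
              rw [run_add_of acc δ ht2]
              exact run_embed hOR hprev2
            have hτ2' : run acc δ T s0 (t + n1' + 1 + n2' + 1) =
                some (d2, o + (P.length : ℤ) + (-1)) := by
              rw [add_assoc, run_add_of acc δ ht2]
              exact run_embed hOR hn2
            have hcross2 : CrossAt acc δ T s0 (o + P.length - 1) (t + n1' + 1 + n2') :=
              ⟨_, _, _, _, hτ2, hτ2', Or.inr ⟨by omega, by omega⟩⟩
            have hs2 : ∀ τ ∈ insert (t + n1' + 1 + n2') (insert (t + n1') s),
                t₁ ≤ τ ∧ τ < t + n1' + 1 + (n2' + 1) ∧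
                CrossAt acc δ T s0 (o + P.length - 1) τ := by
              intro τ hτ
              rw [Finset.mem_insert] at hτ
              rcases hτ with rfl | hτ
              · exact ⟨by omega, by omega, hcross2⟩
              · obtain ⟨h1, h2, h3⟩ := hs1 τ hτ
                exact ⟨h1, by omega, h3⟩
            have hnot2 : t + n1' + 1 + n2' ∉ insert (t + n1') s := by
              intro hin
              have := (hs1 _ hin).2.1
              omega
            have hcard2 : (insert (t + n1' + 1 + n2') (insert (t + n1') s)).card = j + 2 := by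
              rw [Finset.card_insert_of_notMem hnot2, hcard1]
            have hb2 := hbound _ hrange2 _ hs2
            rw [hcard2] at hb2
            have hm2 : 2 ≤ m := by omega
            obtain ⟨l', r, hl', hp', hq'⟩ := ih (m - 2) (by omega) (j + 2) t₁
              (t + n1' + 1 + n2' + 1) _ d2 ((P.length : ℤ) - 1) (by omega) hcard2 (by omega)
              (by simpa [add_assoc] using hs2)
              (by simpa [add_assoc] using hrange2)
              (by rw [hτ2']; congr 2; omega)
              (by omega) (by omega)
            refine ⟨d1 :: d2 :: l', r, by simp; omega, ⟨rfl, hp'⟩, ⟨ho2, hq'⟩⟩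

end Complete

end Vale.Agent.Lib.P343
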